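import Vale.Agent.P300LG.Defs

/-!
# P300LG: the numbers of the model
-/

open Set Complex
open Vale.Agent.P272.K (Cm)

noncomputable section

namespace Vale.Agent.P300LG

/-- the equation of the mirror -/
def tt (X : Cm 2) : ℂ := X 0 - I * X 1

/-- the scalar product of `n` with `conj t` -/
def hp (n : ℝ × ℝ) (X : Cm 2) : ℝ := n.1 * (tt X).re - n.2 * (tt X).im

/-- positive on the real lines, negative on their mirror images -/
def qq (X : Cm 2) : ℝ := (X 0 ^ 2 + X 1 ^ 2).re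

theorem nq_eq (X : Cm 2) :
    nq X = (X 0).re ^ 2 + (X 0).im ^ 2 + ((X 1).re ^ 2 + (X 1).im ^ 2) := by
  simp only [nq, Complex.sq_norm, normSq_apply]
  ring

theorem nq_nonneg (X : Cm 2) : 0 ≤ nq X := by
  unfold nq
  positivity

@[fun_prop] theorem nq_cont : Continuous nq := by
  unfold nq
  fun_prop

theorem nq_rr (X : Cm 2) : nq (rr X) = nq X := by
  simp [nq, rr, add_comm]

theorem tt_rr (X : Cm 2) : tt (rr X) = -tt X := by
  simp only [tt, rr, Matrix.cons_val_zero, Matrix.cons_val_one]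
  linear_combination (X 0) * I_mul_I

theorem qq_rr (X : Cm 2) : qq (rr X) = -qq X := by
  have : rr X 0 ^ 2 + rr X 1 ^ 2 = -(X 0 ^ 2 + X 1 ^ 2) := by
    simp only [rr, Matrix.cons_val_zero, Matrix.cons_val_one]
    linear_combination (X 0 ^ 2 + X 1 ^ 2) * I_mul_I
  rw [qq, this, neg_re, qq]

theorem rr_rr (X : Cm 2) : rr (rr X) = X := by
  funext a
  fin_cases a
  · simp only [rr, Matrix.cons_val_zero, Matrix.cons_val_one, Fin.zero_eta]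
    linear_combination (-X 0) * I_mul_I
  · simp only [rr, Matrix.cons_val_zero, Matrix.cons_val_one, Fin.mk_one]
    linear_combination (-X 1) * I_mul_I

theorem nq_sd (s : Bool) (X : Cm 2) : nq (sd s X) = nq X := by
  cases s
  · rfl
  · exact nq_rr X

theorem sd_sd (s : Bool) (X : Cm 2) : sd s (sd s X) = X := by
  cases s
  · rfl
  · exact rr_rr X

variable {ε y2 ρ : ℝ} {b n : ℝ × ℝ} {X : Cm 2}

theorem beh (h : lb b X ∉ slitPlane) : 1 ≤ b.1 * (X 0).re + b.2 * (X 1).re ∧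
    b.1 * (X 0).im + b.2 * (X 1).im = 0 := by
  simp only [mem_slitPlane_iff, not_or, not_lt, not_not, lb, sub_re, one_re, add_re, re_ofReal_mul,
    sub_im, one_im, add_im, im_ofReal_mul] at h
  exact ⟨by linarith [h.1], by linarith [h.2]⟩

/-- the half plane test -/
theorem half (h : lb b X ∉ slitPlane) (hX : nq X ≤ ε) (h1 : 0 < b.1 * n.1 + b.2 * n.2)
    (h2 : (n.1 ^ 2 + n.2 ^ 2) * ((b.1 ^ 2 + b.2 ^ 2) * (ε * (b.1 ^ 2 + b.2 ^ 2) - 1)) <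
      (b.1 * n.1 + b.2 * n.2) ^ 2) : 0 < hp n X := by
  obtain ⟨k1, k2⟩ := beh h
  rw [nq_eq] at hX
  have e : hp n X = n.1 * ((X 0).re + (X 1).im) + n.2 * ((X 1).re - (X 0).im) := by
    simp only [hp, tt, sub_re, mul_re, I_re, I_im, sub_im, mul_im]
    ring
  rw [e]
  generalize (X 0).re = p1 at *
  generalize (X 0).im = q1 at *
  generalize (X 1).re = p2 at *
  generalize (X 1).im = q2 at *
  obtain ⟨b1, b2⟩ := b
  obtain ⟨n1, n2⟩ := n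
  simp only at *
  set κ := b1 * p1 + b2 * p2 with hκ
  set c := b1 * p2 - b2 * p1 with hc
  set e := b1 * q2 - b2 * q1 with he
  set A := b1 * n1 + b2 * n2 with hA
  set B := b1 * n2 - b2 * n1 with hB
  have hb : 0 < b1 ^ 2 + b2 ^ 2 := by
    by_contra k
    have h3 : b1 = 0 := by nlinarith [sq_nonneg b1, sq_nonneg b2]
    have h4 : b2 = 0 := by nlinarith [sq_nonneg b1, sq_nonneg b2]
    rw [hA, h3, h4] at h1
    simp at h1
  have e1 : (b1 ^ 2 + b2 ^ 2) * (n1 * (p1 + q2) + n2 * (p2 - q1)) = κ * A + (e * A + c * B) := by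
    rw [hκ, hc, he, hA, hB]
    linear_combination (n1 * b2 - n2 * b1) * k2
  have e2 : κ ^ 2 + c ^ 2 + e ^ 2 = (b1 ^ 2 + b2 ^ 2) * (p1 ^ 2 + q1 ^ 2 + (p2 ^ 2 + q2 ^ 2)) := by
    rw [hκ, hc, he]
    linear_combination (-(b1 * q1 + b2 * q2)) * k2
  have e3 : A ^ 2 + B ^ 2 = (n1 ^ 2 + n2 ^ 2) * (b1 ^ 2 + b2 ^ 2) := by
    rw [hA, hB]
    ring
  have e4 : c ^ 2 + e ^ 2 ≤ ε * (b1 ^ 2 + b2 ^ 2) - 1 := by
    have k3 := mul_le_mul_of_nonneg_left hX hb.le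
    have k4 : 1 ≤ κ ^ 2 := one_le_pow₀ k1
    linarith
  have e5 : (e * A + c * B) ^ 2 < A ^ 2 := by
    have k3 : (e * A + c * B) ^ 2 ≤ (c ^ 2 + e ^ 2) * (A ^ 2 + B ^ 2) := by
      nlinarith [sq_nonneg (e * B - c * A)]
    have k4 : (c ^ 2 + e ^ 2) * (A ^ 2 + B ^ 2) ≤ (ε * (b1 ^ 2 + b2 ^ 2) - 1) * (A ^ 2 + B ^ 2) :=
      mul_le_mul_of_nonneg_right e4 (by positivity)
    rw [e3] at k3 k4
    linarith
  have e6 := (abs_lt_of_sq_lt_sq' e5 h1.le).1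
  have e7 : 0 < (b1 ^ 2 + b2 ^ 2) * (n1 * (p1 + q2) + n2 * (p2 - q1)) := by
    have k3 := mul_le_mul_of_nonneg_right k1 h1.le
    linarith
  exact (mul_pos_iff_of_pos_left hb).1 e7

theorem hp_neg (n : ℝ × ℝ) (X : Cm 2) : hp (-n) X = -hp n X := by
  simp only [hp, Prod.fst_neg, Prod.snd_neg]
  ring

theorem qq_pos (h : lb b X ∉ slitPlane) (hX : nq X ≤ ε) (h2 : ε * (b.1 ^ 2 + b.2 ^ 2) < 2) :
    0 < qq X := by
  obtain ⟨k1, -⟩ := beh h
  rw [nq_eq] at hX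
  have e : qq X = (X 0).re ^ 2 + (X 1).re ^ 2 - ((X 0).im ^ 2 + (X 1).im ^ 2) := by
    simp only [qq, add_re, sq, mul_re]
    ring
  rw [e]
  have k3 : 1 ≤ (b.1 ^ 2 + b.2 ^ 2) * ((X 0).re ^ 2 + (X 1).re ^ 2) := by
    nlinarith [sq_nonneg (b.1 * (X 1).re - b.2 * (X 0).re)]
  by_contra k
  have k4 : 2 * ((X 0).re ^ 2 + (X 1).re ^ 2) ≤ ε := by linarith
  have k5 : 0 ≤ b.1 ^ 2 + b.2 ^ 2 := by positivity
  nlinarith

variable {y : ℝ}

theorem hA (he : ε < 1415 / 1000) (h1 : -43 / 140 ≤ y) (h2 : y ≤ 4 / 5) (hX : nq X ≤ ε)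
    (h : lb (17 / 20, y) X ∉ slitPlane) : 0 < hp (1, 1) X := by
  refine half h (hX.trans he.le) (by simp only; linarith) ?_
  simp only
  nlinarith [mul_nonneg (sub_nonneg.2 h1) (sub_nonneg.2 h2), sq_nonneg y, sq_nonneg (y - 1 / 4),
    mul_nonneg (mul_nonneg (sub_nonneg.2 h1) (sub_nonneg.2 h2)) (sq_nonneg (y + 1 / 4))]

theorem hB (he : ε < 1415 / 1000) (h1 : -3 / 4 ≤ y) (h2 : y ≤ 1 / 10) (hX : nq X ≤ ε)
    (h : lb (17 / 20, y) X ∉ slitPlane) : 0 < hp (7, -3) X := by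
  refine half h (hX.trans he.le) (by simp only; linarith) ?_
  simp only
  nlinarith [mul_nonneg (sub_nonneg.2 h1) (sub_nonneg.2 h2), sq_nonneg y, sq_nonneg (y + 1 / 4),
    mul_nonneg (mul_nonneg (sub_nonneg.2 h1) (sub_nonneg.2 h2)) (sq_nonneg (y - 1 / 3))]

theorem hQ (he : ε < 1415 / 1000) (h1 : -3 / 4 ≤ y) (h2 : y ≤ 4 / 5) (hX : nq X ≤ ε)
    (h : lb (17 / 20, y) X ∉ slitPlane) : 0 < qq X := by
  refine qq_pos h (hX.trans he.le) ?_
  simp only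
  nlinarith

theorem h4 (he : ε < 1415 / 1000) (hX : nq X ≤ ε) (h : lb (bb y2 4) X ∉ slitPlane) :
    hp (1, 1) X < 0 ∧ hp (0, 1) X < 0 ∧ 0 < qq X := by
  have k : bb y2 4 = (-1 / 10, -21 / 20) := rfl
  rw [k] at h
  refine ⟨?_, ?_, qq_pos h (hX.trans he.le) (by norm_num)⟩
  · have := half (n := -(1, 1)) h (hX.trans he.le) (by norm_num) (by norm_num)
    rw [hp_neg] at this
    linarith
  · have := half (n := -(0, 1)) h (hX.trans he.le) (by norm_num) (by norm_num)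
    rw [hp_neg] at this
    linarith

theorem h5 (he : ε < 1415 / 1000) (hX : nq X ≤ ε) (h : lb (bb y2 5) X ∉ slitPlane) :
    hp (1, 1) X < 0 ∧ hp (7, -3) X < 0 ∧ 0 < qq X := by
  have k : bb y2 5 = (-1, -1 / 4) := rfl
  rw [k] at h
  refine ⟨?_, ?_, qq_pos h (hX.trans he.le) (by norm_num)⟩
  · have := half (n := -(1, 1)) h (hX.trans he.le) (by norm_num) (by norm_num)
    rw [hp_neg] at this
    linarith
  · have := half (n := -(7, -3)) h (hX.trans he.le) (by norm_num) (by norm_num)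
    rw [hp_neg] at this
    linarith

theorem h6 (he : ε < 1415 / 1000) (hX : nq X ≤ ε) (h : lb (bb y2 6) X ∉ slitPlane) :
    hp (7, -3) X < 0 ∧ 0 < hp (0, 1) X ∧ 0 < qq X := by
  have k : bb y2 6 = (-3 / 5, 9 / 10) := rfl
  rw [k] at h
  refine ⟨?_, half h (hX.trans he.le) (by norm_num) (by norm_num),
    qq_pos h (hX.trans he.le) (by norm_num)⟩
  have := half (n := -(7, -3)) h (hX.trans he.le) (by norm_num) (by norm_num)
  rw [hp_neg] at this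
  linarith

theorem h0 (hP : Par ε y2 ρ) (hX : nq X ≤ ε) (h : lb (bb y2 0) X ∉ slitPlane) :
    0 < hp (1, 1) X ∧ 0 < qq X :=
  ⟨hA hP.e2 (by norm_num) le_rfl hX h, hQ hP.e2 (by norm_num) le_rfl hX h⟩

theorem h1 (hP : Par ε y2 ρ) (hX : nq X ≤ ε) (h : lb (bb y2 1) X ∉ slitPlane) :
    0 < hp (1, 1) X ∧ 0 < hp (7, -3) X ∧ 0 < qq X :=
  ⟨hA hP.e2 hP.y1 (by linarith [hP.y2]) hX h, hB hP.e2 (by linarith [hP.y1]) hP.y2 hX h,
    hQ hP.e2 (by linarith [hP.y1]) (by linarith [hP.y2]) hX h⟩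

theorem h2 (hP : Par ε y2 ρ) (hX : nq X ≤ ε) (h : lb (bb y2 2) X ∉ slitPlane) :
    0 < hp (7, -3) X ∧ 0 < qq X :=
  ⟨hB hP.e2 (by norm_num) (by norm_num) hX h, hQ hP.e2 (by norm_num) (by norm_num) hX h⟩

theorem h3 (hP : Par ε y2 ρ) (hX : nq X ≤ ε) (h : lb (bb y2 3) X ∉ slitPlane) :
    0 < hp (7, -3) X ∧ 0 < qq X :=
  ⟨hB hP.e2 le_rfl (by norm_num) hX h, hQ hP.e2 le_rfl (by norm_num) hX h⟩

theorem qq_beh (hP : Par ε y2 ρ) (hX : nq X ≤ ε) {i : Fin 7} (h : lb (bb y2 i) X ∉ slitPlane) :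
    0 < qq X := by
  fin_cases i
  exacts [(h0 hP hX h).2, (h1 hP hX h).2.2, (h2 hP hX h).2, (h3 hP hX h).2, (h4 hP.e2 hX h).2.2,
    (h5 hP.e2 hX h).2.2, (h6 hP.e2 hX h).2.2]

theorem tt_beh (hP : Par ε y2 ρ) (hX : nq X ≤ ε) {i : Fin 7} (h : lb (bb y2 i) X ∉ slitPlane) :
    tt X ≠ 0 := fun e => by
  have k : ∀ n, hp n X = 0 := fun n => by simp [hp, e]
  fin_cases i
  exacts [(h0 hP hX h).1.ne' (k _), (h1 hP hX h).1.ne' (k _), (h2 hP hX h).1.ne' (k _),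
    (h3 hP hX h).1.ne' (k _), (h4 hP.e2 hX h).1.ne (k _), (h5 hP.e2 hX h).1.ne (k _),
    (h6 hP.e2 hX h).1.ne (k _)]

theorem zero_beh (h : lb b X = 0) : lb b X ∉ slitPlane := h ▸ zero_notMem_slitPlane

/-- the nodes -/
def vx : Fin 5 → Cm 2 := ![![20 / 249, 290 / 249], ![40 / 129, -380 / 387], ![67 / 113, -114 / 113],
  ![-32 / 41, -36 / 41], ![-23 / 21, 8 / 21]]

/-- the lines through the nodes -/
def pr : Fin 5 → Fin 7 × Fin 7 := ![(0, 6), (3, 4), (2, 4), (4, 5), (5, 6)]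

theorem nq_vx (k : Fin 5) : nq (vx k) ≤ 1385 / 1000 := by
  fin_cases k <;> simp [nq_eq, vx] <;> norm_num

theorem nq_P0 : nq P0 ≤ 1385 / 1000 := by
  simp [nq_eq, P0]
  norm_num

theorem solve {b' : ℝ × ℝ} {V : Cm 2} (h : lb b X = 0) (h' : lb b' X = 0) (k : lb b V = 0)
    (k' : lb b' V = 0) (hd : b.1 * b'.2 - b.2 * b'.1 ≠ 0) : X = V := by
  have e : (b.1 * b'.2 - b.2 * b'.1 : ℂ) ≠ 0 := by exact_mod_cast hd
  simp only [lb] at h h' k k'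
  funext a
  fin_cases a
  · refine mul_left_cancel₀ e ?_
    simp only [Fin.zero_eta]
    linear_combination (-b'.2 : ℂ) * h + (b.2 : ℂ) * h' + (b'.2 : ℂ) * k - (b.2 : ℂ) * k'
  · refine mul_left_cancel₀ e ?_
    simp only [Fin.mk_one]
    linear_combination (b'.1 : ℂ) * h - (b.1 : ℂ) * h' - (b'.1 : ℂ) * k + (b.1 : ℂ) * k'

theorem lb_P0 (y : ℝ) : lb (17 / 20, y) P0 = 0 := by
  simp [lb, P0]

theorem lb_vx (y2 : ℝ) (k : Fin 5) :
    lb (bb y2 (pr k).1) (vx k) = 0 ∧ lb (bb y2 (pr k).2) (vx k) = 0 := by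
  fin_cases k <;> simp [lb, bb, pr, vx] <;> norm_num

theorem bb_lt {i : Fin 7} (h : i < 4) : bb y2 i = (17 / 20, (bb y2 i).2) := by
  fin_cases i <;> first | rfl | exact absurd h (by decide)

theorem bb_inj (hP : Par ε y2 ρ) {i j : Fin 7} (h : i < 4) (h' : j < 4) (e : i ≠ j) :
    (bb y2 i).2 ≠ (bb y2 j).2 := by
  have k1 := hP.y1
  have k2 := hP.y2
  fin_cases i <;> fin_cases j <;>
    first
    | exact absurd h (by decide)
    | exact absurd h' (by decide)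
    | exact absurd rfl e
    | (intro k; simp [bb] at k; linarith)

theorem meet_pen (hP : Par ε y2 ρ) {i j : Fin 7} (hi : i < 4) (hj : j < 4) (e : i ≠ j)
    (h : lb (bb y2 i) X = 0) (h' : lb (bb y2 j) X = 0) : X = P0 := by
  have := bb_inj hP hi hj e
  rw [bb_lt hi] at h
  rw [bb_lt hj] at h'
  refine solve h h' (lb_P0 _) (lb_P0 _) fun k => this ?_
  simp only at k
  linarith

theorem meet_vx (k : Fin 5) (h : lb (bb y2 (pr k).1) X = 0) (h' : lb (bb y2 (pr k).2) X = 0) :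
    X = vx k :=
  solve h h' (lb_vx y2 k).1 (lb_vx y2 k).2 (by fin_cases k <;> simp [bb, pr] <;> norm_num)

/-- the pairs of real lines whose shadows meet -/
theorem pairs (hP : Par ε y2 ρ) (hX : nq X ≤ ε) {i j : Fin 7} (e : i < j)
    (h : lb (bb y2 i) X ∉ slitPlane) (h' : lb (bb y2 j) X ∉ slitPlane) :
    j < 4 ∨ ∃ k, pr k = (i, j) := by
  have key : ∀ i j : Fin 7, i < j → j < 4 ∨ (∃ k, pr k = (i, j)) ∨
      (i = 0 ∧ j = 4) ∨ (i = 0 ∧ j = 5) ∨ (i = 1 ∧ j = 4) ∨ (i = 1 ∧ j = 5) ∨ (i = 1 ∧ j = 6) ∨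
      (i = 2 ∧ j = 5) ∨ (i = 2 ∧ j = 6) ∨ (i = 3 ∧ j = 5) ∨ (i = 3 ∧ j = 6) ∨ (i = 4 ∧ j = 6) := by
    decide
  rcases key i j e with c | c | ⟨rfl, rfl⟩ | ⟨rfl, rfl⟩ | ⟨rfl, rfl⟩ | ⟨rfl, rfl⟩ | ⟨rfl, rfl⟩ |
    ⟨rfl, rfl⟩ | ⟨rfl, rfl⟩ | ⟨rfl, rfl⟩ | ⟨rfl, rfl⟩ | ⟨rfl, rfl⟩
  exacts [.inl c, .inr c, absurd (h4 hP.e2 hX h').1 (h0 hP hX h).1.not_gt,
    absurd (h5 hP.e2 hX h').1 (h0 hP hX h).1.not_gt,
    absurd (h4 hP.e2 hX h').1 (h1 hP hX h).1.not_gt,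
    absurd (h5 hP.e2 hX h').1 (h1 hP hX h).1.not_gt,
    absurd (h6 hP.e2 hX h').1 (h1 hP hX h).2.1.not_gt,
    absurd (h5 hP.e2 hX h').2.1 (h2 hP hX h).1.not_gt,
    absurd (h6 hP.e2 hX h').1 (h2 hP hX h).1.not_gt,
    absurd (h5 hP.e2 hX h').2.1 (h3 hP hX h).1.not_gt,
    absurd (h6 hP.e2 hX h').1 (h3 hP hX h).1.not_gt,
    absurd (h4 hP.e2 hX h).2.1 (h6 hP.e2 hX h').2.1.not_gt]

theorem meet_lb (hP : Par ε y2 ρ) (hX : nq X ≤ ε) {i j : Fin 7} (e : i ≠ j)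
    (h : lb (bb y2 i) X = 0) (h' : lb (bb y2 j) X = 0) :
    i < 4 ∧ j < 4 ∧ X = P0 ∨ ∃ k, X = vx k ∧ (pr k = (i, j) ∨ pr k = (j, i)) := by
  rcases lt_or_gt_of_ne e with k | k
  · rcases pairs hP hX k (zero_beh h) (zero_beh h') with c | ⟨c, hc⟩
    · exact .inl ⟨k.trans c, c, meet_pen hP (k.trans c) c e h h'⟩
    · exact .inr ⟨c, meet_vx c (by rw [hc]; exact h) (by rw [hc]; exact h'), .inl hc⟩
  · rcases pairs hP hX k (zero_beh h') (zero_beh h) with c | ⟨c, hc⟩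
    · exact .inl ⟨c, k.trans c, meet_pen hP c (k.trans c) e h h'⟩
    · exact .inr ⟨c, meet_vx c (by rw [hc]; exact h') (by rw [hc]; exact h), .inr hc⟩

theorem side_eq (hP : Par ε y2 ρ) (hX : nq X ≤ ε) {s s' : Bool} {i j : Fin 7}
    (h : lb (bb y2 i) (sd s X) ∉ slitPlane) (h' : lb (bb y2 j) (sd s' X) ∉ slitPlane) : s = s' := by
  have k := qq_beh hP ((nq_sd s X).symm ▸ hX) h
  have k' := qq_beh hP ((nq_sd s' X).symm ▸ hX) h'
  cases s <;> cases s' <;> simp only [sd, if_true, Bool.false_eq_true, if_false, qq_rr] at k k' <;>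
    first | rfl | linarith

theorem tt_sd_ne (hP : Par ε y2 ρ) (hX : nq X ≤ ε) {s : Bool} {i : Fin 7}
    (h : lb (bb y2 i) (sd s X) ∉ slitPlane) : tt X ≠ 0 := fun e => by
  refine tt_beh hP ((nq_sd s X).symm ▸ hX) h ?_
  cases s
  · exact e
  · exact (tt_rr X).trans (by rw [e, neg_zero])

/-- the points of the closed ball on two model lines -/
theorem meet (hP : Par ε y2 ρ) (hX : nq X ≤ ε) {j j' : Jx} (e : j ≠ j') (h : mf y2 j X = 0)
    (h' : mf y2 j' X = 0) : ∃ s i i', j = some (s, i) ∧ j' = some (s, i') ∧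
      (i < 4 ∧ i' < 4 ∧ sd s X = P0 ∨
        ∃ k, sd s X = vx k ∧ (pr k = (i, i') ∨ pr k = (i', i))) := by
  rcases j with _ | ⟨s, i⟩ <;> rcases j' with _ | ⟨s', i'⟩
  · exact absurd rfl e
  · exact absurd h (tt_sd_ne hP hX (zero_beh h'))
  · exact absurd h' (tt_sd_ne hP hX (zero_beh h))
  · obtain rfl := side_eq hP hX (zero_beh h) (zero_beh h')
    exact ⟨s, i, i', rfl, rfl,
      meet_lb hP ((nq_sd s X).symm ▸ hX) (fun k => e (by rw [k])) h h'⟩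

theorem mf_meet (hP : Par ε y2 ρ) (hX : nq X ≤ ε) {j j' : Jx} (e : j ≠ j') (h : mf y2 j X = 0)
    (h' : mf y2 j' X = 0) : nq X ≤ 1385 / 1000 := by
  obtain ⟨s, -, -, -, -, ⟨-, -, k⟩ | ⟨c, k, -⟩⟩ := meet hP hX e h h'
  · rw [← nq_sd s, k]
    exact nq_P0
  · rw [← nq_sd s, k]
    exact nq_vx c

end Vale.Agent.P300LG
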