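import Vale.Agent.P300LG.Clu
import Vale.Agent.P300LR.Link

/-!
# P300LG: the winding number
-/

open Set Filter Topology Complex unitInterval
open scoped ComplexConjugate
open Vale.Agent.P272.K (Cm)
open Vale.Agent.P300LX Vale.Agent.P300LX.Dat
open Vale.Agent.P288.BQ (act_one)

noncomputable section

namespace Vale.Agent.P300LG

variable {D : Dat} {A : Arr D} {y2 ρ : ℝ} {K : Set (Cm 2)} {M : Md A y2 K} {y : D.Xh}

namespace Pen

variable (P : Pen D K (M.Y false)) (hX : ∀ z, M.X z = z)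
include hX

theorem p_eq : P.p.1 = P0 := by
  have k : ∀ η : ℝ, lb (17 / 20, η) P.p = 0 := fun η => by
    have h : bd P.p ((0 : ℂ), (0 : Cm 2)) ∈ K := (bd_zero _ _).symm ▸ interior_subset P.int
    have := P.lin η _ h
    rw [zero_mul, show M.Y false (bd P.p (0, 0)) = _ from hX _] at this
    simpa only [bd_zero] using (mul_eq_zero.1 this).resolve_left (P.a0 _ h)
  exact solve (k 0) (k 1) (lb_P0 _) (lb_P0 _) (by norm_num)

theorem n_val (v : Cm 2) : ∃ κ : ℂ, κ ≠ 0 ∧ ∀ η : ℝ, P.n η v = κ * (17 / 20 * v 0 + η * v 1) := by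
  have b : ContinuousAt (fun t : ℂ => bd P.p (t, v)) 0 := by fun_prop
  obtain ⟨t, ht, t0⟩ := (((b.eventually ((bd_zero P.p.1 v).symm ▸
    mem_interior_iff_mem_nhds.1 P.int)).filter_mono nhdsWithin_le_nhds).and
    (self_mem_nhdsWithin (s := {0}ᶜ))).exists
  refine ⟨-P.a (bd P.p (t, v)), neg_ne_zero.2 (P.a0 _ ht), fun η => mul_left_cancel₀ t0 ?_⟩
  have := P.lin η (t, v) ht
  rw [show M.Y false (bd P.p (t, v)) = _ from hX _] at this
  rw [n_eq, ← this]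
  generalize P.a (bd P.p (t, v)) = a
  simp only [lb, bd, P.p_eq hX, P0, Pi.add_apply, Pi.smul_apply, smul_eq_mul, Matrix.cons_val_zero,
    Matrix.cons_val_one]
  push_cast
  ring

theorem arc_W {a b : ℝ} {ω : ℂ} (h : Rep P.p y ((0, (a : ℂ) • dir 0 + (b : ℂ) • dir 1), ω))
    (η η' : ℝ) : y ∈ P.W η η' ↔ (17 / 20 * (-16 * a - 15 * b) + η' * (17 * a - 17 * b)) *
      (17 / 20 * (-16 * a - 15 * b) + η * (17 * a - 17 * b)) ≤ 0 := by
  obtain ⟨r, hr, e⟩ := RR_eq h (P.n η) (P.n η')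
  obtain ⟨κ, k0, k⟩ := P.n_val hX ((a : ℂ) • dir 0 + (b : ℂ) • dir 1)
  have k1 : ∀ η : ℝ, P.n η ((a : ℂ) • dir 0 + (b : ℂ) • dir 1) =
      κ * (17 / 20 * (-16 * a - 15 * b) + η * (17 * a - 17 * b) : ℝ) := fun η => by
    rw [k]
    simp [dir]
    left
    ring
  have k2 : π y ∈ K := by
    rw [h.π_iff.2 rfl]
    exact interior_subset P.int
  rw [W, mem_inter_iff, mem_preimage, and_iff_right k2, mem_preimage, mem_compl_iff, e,
    slit_mul hr, k1, k1, map_mul, conj_ofReal, mul_mul_mul_comm, mul_comm _ κ, mul_conj,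
    slit_mul (normSq_pos.2 k0), ← ofReal_mul, ofReal_mem_slitPlane, not_lt]

theorem arc_U (hP : Par A.ε y2 ρ) (hS : M.S false = Finset.univ) (S₁ : Side M true) {a b : ℝ}
    {ω : ℂ} (ha : 0 < a) (hb : 0 < b)
    (h : Rep P.p y ((0, (a : ℂ) • dir 0 + (b : ℂ) • dir 1), ω)) :
    y ∈ Side.U (P.side hP hS) S₁ := by
  have e : π y = P0 := (h.π_iff.2 rfl).trans (P.p_eq hX)
  have e' : M.Y false (π y) = P0 := (hX _).trans e
  refine ⟨by rw [mem_preimage, h.π_iff.2 rfl]; exact interior_subset P.int, ?_⟩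
  have k1 := hP.y1
  have k2 := hP.y2
  rintro (((k | k) | (k | k) | k) | k)
  · rw [P.arc_W hX h] at k
    nlinarith [mul_pos ha hb, mul_pos hb hb, mul_nonneg (mul_pos ha hb).le (sub_nonneg.2 k2),
      mul_nonneg (mul_pos hb hb).le (sub_nonneg.2 k1)]
  · rw [P.arc_W hX h] at k
    nlinarith [mul_pos ha hb, mul_pos ha ha]
  · refine k.2 ?_
    simp only [e', show bb y2 4 = (-1 / 10, -21 / 20) from rfl]
    norm_num [lb, P0, mem_slitPlane_iff]
  · refine k.2 ?_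
    simp only [e', show bb y2 5 = (-1, -1 / 4) from rfl]
    norm_num [lb, P0, mem_slitPlane_iff]
  · refine k.2 ?_
    simp only [e', show bb y2 6 = (-3 / 5, 9 / 10) from rfl]
    norm_num [lb, P0, mem_slitPlane_iff]
  · have := S₁.pos y k
    rw [hX, e, show sd true P0 = rr P0 from rfl, qq_rr] at this
    norm_num [qq, P0, sq] at this

omit hX in
theorem flip (hP : Par A.ε y2 ρ) (hS : M.S false = Finset.univ) (S₁ : Side M true) {y' : D.Xh}
    {v : Cm 2} {ω : ℂ} (h : Rep P.p y ((0, v), ω)) (h' : Rep P.p y' ((0, v), -ω))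
    (k : y ∈ Side.U (P.side hP hS) S₁) (k' : y' ∈ Side.U (P.side hP hS) S₁) :
    Side.ψ (P.side hP hS) S₁ y' = -Side.ψ (P.side hP hS) S₁ y := by
  have a : ∀ {y : D.Xh} {ω : ℂ}, Rep P.p y ((0, v), ω) → y ∈ Side.U (P.side hP hS) S₁ →
      Side.ψ (P.side hP hS) S₁ y = (P.n y2 v)⁻¹ ^ D.k P.p * ω /
        (M.V P.p * (P.σ ((P.n y2 v)⁻¹ • v) / P.a P.p ^ 2 * r M false P.p) * S₁.R P.p) :=
    fun {y ω} h k => by
    have e : π y = P.p := h.π_iff.2 rfl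
    have n : P.n y2 v ≠ 0 := (RR_slit h (a := P.n (4 / 5))
      (not_not.1 fun c => k.2 (.inl (.inl (.inl ⟨k.1, c⟩))))).1
    have c : P.c y = _ := h.crd_eq n
    have t : (P.side hP hS).τ y = 0 := by
      show (P.c y).1.1 ^ 2 = 0
      simp [c, scl]
    rw [Side.ψ₀ fun c => Side.tau_ne hP k c t, Side.F₀, S₁.rt_eq y (Side.U₁ k)]
    show (P.c y).2 / (M.V (π y) * (P.σ (P.c y).1.2 / P.a (π y) ^ 2 * r M false (π y)) *
      S₁.R (π y)) = _
    rw [c, e]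
    rfl
  rw [a h k, a h' k']
  ring

end Pen

theorem wind_of (pol : POL) : WIND := by
  intro D A y2 ρ hP Q p hp y₀ y₁ γ γ' arc W f u hW T F F' e e' h0
  obtain ⟨H, hH⟩ := pol D A y2 ρ hP Q p hp 0 1 (.inl ⟨rfl, rfl⟩) γ γ' arc
  obtain ⟨M, hX, hS⟩ := P300LZ.mod D A y2 ρ hP Q Q.c0
  have hf := Q.full
  have eK : KK A.ε ρ (Q.m Q.c0) = Bl ρ := by
    ext z
    simp only [KK, Q.m0, act_one, mem_ofPred_eq, Bl, and_iff_right_iff_imp]
    exact fun h => h.trans_lt hP.r2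
  simp only [Q.m0, act_one] at hX
  generalize KK A.ε ρ (Q.m Q.c0) = K at M hX hS hf eK
  subst eK
  have hs : ∀ i, i ∈ M.S false := fun i => (hS _ i).2 (hf _)
  obtain ⟨hU, ⟨P⟩⟩ := (M.cas false).resolve_left (by simp [hs])
  obtain ⟨S₁⟩ := M.side hP true
  obtain ⟨α, k, h1, h2, h3⟩ := M.dl.resolve_left fun c => by
    obtain ⟨L, a, z, b, d⟩ := hf none
    obtain ⟨α, rfl⟩ := (Q.ty_d L).1 a
    exact c α z b d
  obtain rfl : Pen.p (Y := M.Y false) P = p := Subtype.ext ((Pen.p_eq P hX).trans hp.symm)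
  obtain ⟨L, c, c1, l1, l2, u', T'⟩ := Side.triv (S₀ := Pen.side P hP hU) (S₁ := S₁) hP h1 h2 h3
  obtain ⟨q, cq, hq⟩ := P300LO.ex_quot T T'
  have m : ∀ x, H x ∈ π ⁻¹' (W ∩ Bl ρ) := fun x => ⟨hW (hH x), hH x⟩
  have m0 : ∀ s, γ s ∈ π ⁻¹' (W ∩ Bl ρ) := fun s => H.apply_zero s ▸ m (0, s)
  have m1 : ∀ s, γ' s ∈ π ⁻¹' (W ∩ Bl ρ) := fun s => H.apply_one s ▸ m (1, s)
  have hU' : ∀ s ∈ Ioo (0 : I) 1, γ s ∈ Side.U (Pen.side P hP hU) S₁ ∧
      γ' s ∈ Side.U (Pen.side P hP hU) S₁ ∧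
      Side.ψ (Pen.side P hP hU) S₁ (γ' s) = -Side.ψ (Pen.side P hP hU) S₁ (γ s) := fun s hs => by
    obtain ⟨a, b, ω, a0, b0, a1, b1, r, r'⟩ := arc s
    have a2 := a0.lt_of_ne' fun c => hs.2.ne (a1.1 c)
    have b2 := b0.lt_of_ne' fun c => hs.1.ne' (b1.1 c)
    have k := Pen.arc_U P hX hP hU S₁ a2 b2 r
    have k' := Pen.arc_U P hX hP hU S₁ a2 b2 r'
    exact ⟨k, k', Pen.flip P hP hU S₁ r r' k k'⟩
  have w0 : y₀ ∈ Pen.W P (4 / 5) y2 ∧ π y₀ = P0 := by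
    obtain ⟨a, b, ω, -, -, -, b1, r, -⟩ := arc 0
    rw [γ.source] at r
    refine ⟨(Pen.arc_W P hX r _ _).2 (le_of_eq ?_), (r.π_iff.2 rfl).trans hp⟩
    rw [b1.2 rfl]
    ring
  have w1 : y₁ ∈ Pen.W P (-59 / 120) (-3 / 4) ∧ π y₁ = P0 := by
    obtain ⟨a, b, ω, -, -, a1, -, r, -⟩ := arc 1
    rw [γ.target] at r
    refine ⟨(Pen.arc_W P hX r _ _).2 (le_of_eq ?_), (r.π_iff.2 rfl).trans hp⟩
    rw [a1.2 rfl]
    ring
  have L0 : L y₀ = log (tt P0) := by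
    rw [l2 _ (.inl (.inl w0.1)), ← w0.2, ← hX (π y₀)]
    exact Pen.L_W₀ P w0.1
  have L1 : L y₁ = log (tt P0) - 2 * Real.pi * Complex.I := by
    rw [l2 _ (.inl (.inr w1.1)), ← w1.2, ← hX (π y₁)]
    exact Pen.L_W₁ P hP w1.1
  have t0 : tt P0 ≠ 0 := by simp [tt, P0]
  have ends : ∀ (δ : Path y₀ y₁) (s : I), s ∉ Ioo (0 : I) 1 →
      Side.ff (Pen.side P hP hU) S₁ L c (δ s) = 1 ∧ exp (log (tt P0) - L (δ s)) = 1 :=
    fun δ s hs => by
    rcases (show s = 0 ∨ s = 1 by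
      by_contra k
      rw [not_or] at k
      exact hs ⟨nonneg'.lt_of_ne' k.1, le_one'.lt_of_ne k.2⟩) with rfl | rfl
    · rw [δ.source, L0, sub_self, exp_zero]
      exact ⟨if_neg fun k => k.1.2 (.inl (.inl (.inl w0.1))), rfl⟩
    · rw [δ.target, L1, sub_sub_cancel, exp_two_pi_mul_I]
      exact ⟨if_neg fun k => k.1.2 (.inl (.inl (.inr w1.1))), rfl⟩
  have c0 : -c ≠ c := fun k => by
    rw [neg_eq_iff_add_eq_zero, add_self_eq_zero] at k
    simp [k] at c1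
  have key : ∀ δ δ' : Path y₀ y₁, (∀ s, π (δ s) = P0) → (∀ s ∈ Ioo (0 : I) 1,
      δ s ∈ Side.U (Pen.side P hP hU) S₁ ∧ Side.ψ (Pen.side P hP hU) S₁ (δ s) = c ∧
        Side.ψ (Pen.side P hP hU) S₁ (δ' s) = -c) → ∃ G : C(I, ℂ), G 0 = 0 ∧
      G 1 = 2 * Real.pi * Complex.I ∧ ∀ s, exp (G s) = Side.ff (Pen.side P hP hU) S₁ L c (δ s) ∧
        Side.ff (Pen.side P hP hU) S₁ L c (δ' s) = 1 := fun δ δ' h h' => by
    refine ⟨⟨fun s => log (tt P0) - L (δ s), continuous_const.sub (l1.comp_continuous δ.continuous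
      fun s => by rw [mem_preimage, h, ← w0.2]; exact w0.1.1)⟩, by simp [L0], by simp [L1],
      fun s => ?_⟩
    by_cases hs : s ∈ Ioo (0 : I) 1
    · refine ⟨?_, if_neg fun k => c0 ((h' s hs).2.2.symm.trans k.2)⟩
      rw [Side.ff, if_pos ⟨(h' s hs).1, (h' s hs).2.1⟩, hX, h, ContinuousMap.coe_mk, sub_eq_add_neg,
        exp_add, exp_log t0]
    · exact ⟨(ends δ s hs).2.trans (ends δ s hs).1.symm, (ends δ' s hs).1⟩
  have π0 : ∀ s, π (γ s) = P0 ∧ π (γ' s) = P0 := fun s =>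
    let ⟨_, _, _, _, _, _, _, r, r'⟩ := arc s
    ⟨(r.π_iff.2 rfl).trans hp, (r'.π_iff.2 rfl).trans hp⟩
  have cs : (∀ s ∈ Ioo (0 : I) 1, Side.ψ (Pen.side P hP hU) S₁ (γ s) = c) ∨
      ∀ s ∈ Ioo (0 : I) 1, Side.ψ (Pen.side P hP hU) S₁ (γ s) = -c := by
    have := isPreconnected_Ioo.eq_one_or_eq_neg_one_of_sq_eq
      ((Side.ψ_cont hP).comp γ.continuous.continuousOn fun s hs => (hU' s hs).1)
      fun s hs => Side.ψ_sq hP (hU' s hs).1
    rcases sq_eq_one_iff.1 c1 with rfl | rfl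
    · exact this
    · exact this.symm.imp id fun k s hs => (k hs).trans (neg_neg _).symm
  have ne := fun y k => (hq y k).1
  rcases cs with cs | cs
  · obtain ⟨G, g0, g1, g⟩ := key γ γ' (fun s => (π0 s).1) fun s hs =>
      ⟨(hU' s hs).1, cs s hs, by rw [(hU' s hs).2.2, cs s hs]⟩
    have := P300LR.log_end cq ne H m (F - G) F' (fun s => by
      rw [ContinuousMap.sub_apply, exp_sub, e, (hq _ (m0 s)).2.1, ← (g s).1,
        mul_div_cancel_left₀ _ (exp_ne_zero _)])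
      (fun s => by rw [e', (hq _ (m1 s)).2.1, (g s).2, one_mul]) (by simp [g0, h0])
    intro k
    rw [ContinuousMap.sub_apply, g1, k, sub_eq_self] at this
    exact two_pi_I_ne_zero this
  · obtain ⟨G, g0, g1, g⟩ := key γ' γ (fun s => (π0 s).2) fun s hs =>
      ⟨(hU' s hs).2.1, by rw [(hU' s hs).2.2, cs s hs, neg_neg], cs s hs⟩
    have := P300LR.log_end cq ne H m F (F' - G)
      (fun s => by rw [e, (hq _ (m0 s)).2.1, (g s).2, one_mul]) (fun s => by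
      rw [ContinuousMap.sub_apply, exp_sub, e', (hq _ (m1 s)).2.1, ← (g s).1,
        mul_div_cancel_left₀ _ (exp_ne_zero _)]) (by simp [g0, h0])
    intro k
    rw [ContinuousMap.sub_apply, g1, k, eq_comm, sub_eq_self] at this
    exact two_pi_I_ne_zero this

end Vale.Agent.P300LG
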