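import Vale.Agent.P300LG.Num

/-!
# P300LG: the multiplicities of the model
-/

open Set Complex
open Vale.Agent.P272.K (Cm)

noncomputable section

namespace Vale.Agent.P300LG

variable {ε y2 ρ : ℝ} {X : Cm 2}

theorem vx_ne (k : Fin 5) : vx k ≠ P0 := fun e => by
  have := congrFun e 1
  fin_cases k <;> simp [vx, P0] at this

theorem vx_inj {k k' : Fin 5} (e : vx k = vx k') : k = k' := by
  have := congrArg Complex.re (congrFun e 0)
  fin_cases k <;> fin_cases k' <;> first | rfl | (simp [vx] at this; try norm_num at this)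

theorem mf_pen {s : Bool} (h : sd s X = P0) {k : Fin 7} (hk : k < 4) :
    mf y2 (some (s, k)) X = 0 := by
  show lb (bb y2 k) (sd s X) = 0
  rw [h, bb_lt hk, lb_P0]

/-- the lines through the fourfold point -/
theorem mf_P0 (hP : Par ε y2 ρ) {s : Bool} (h : sd s X = P0) (j : Jx) :
    mf y2 j X = 0 ↔ ∃ k < 4, j = some (s, k) := by
  refine ⟨fun hj => ?_, fun ⟨k, hk, e⟩ => e ▸ mf_pen h hk⟩
  by_cases e : j = some (s, 0)
  · exact ⟨0, by decide, e⟩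
  have hX : nq X ≤ ε := by
    rw [← nq_sd s, h]
    linarith [nq_P0, hP.e1]
  obtain ⟨s', i, i', e1, e2, ⟨k, -, -⟩ | ⟨c, k, -⟩⟩ := meet hP hX e hj (mf_pen h (by decide))
  · obtain ⟨rfl, -⟩ := Prod.mk.inj (Option.some.inj e2)
    exact ⟨i, k, e1⟩
  · obtain ⟨rfl, -⟩ := Prod.mk.inj (Option.some.inj e2)
    exact absurd (k.symm.trans h) (vx_ne c)

/-- three model lines meet only in a fourfold point -/
theorem three (hP : Par ε y2 ρ) (hX : nq X ≤ ε) {j₁ j₂ j₃ : Jx} (e₁ : j₁ ≠ j₂) (e₂ : j₁ ≠ j₃)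
    (e₃ : j₂ ≠ j₃) (h₁ : mf y2 j₁ X = 0) (h₂ : mf y2 j₂ X = 0) (h₃ : mf y2 j₃ X = 0) :
    ∃ s, sd s X = P0 ∧ ∀ j, mf y2 j X = 0 ↔ ∃ k < 4, j = some (s, k) := by
  obtain ⟨s, i, i', rfl, rfl, ⟨-, -, k⟩ | ⟨c, k, hc⟩⟩ := meet hP hX e₁ h₁ h₂
  · exact ⟨s, k, mf_P0 hP k⟩
  obtain ⟨s', i₁, i₃, e1, rfl, ⟨-, -, k'⟩ | ⟨c', k', hc'⟩⟩ := meet hP hX e₂ h₁ h₃
  · exact ⟨s', k', mf_P0 hP k'⟩
  obtain ⟨rfl, rfl⟩ := Prod.mk.inj (Option.some.inj e1)
  obtain rfl := vx_inj (k.symm.trans k')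
  exfalso
  rcases hc with hc | hc <;> rcases hc' with hc' | hc' <;>
    obtain ⟨a, b⟩ := Prod.mk.inj (hc.symm.trans hc')
  · exact e₃ (by rw [b])
  · exact e₁ (by rw [b])
  · exact e₁ (by rw [a])
  · exact e₃ (by rw [a])

theorem mf_none (hP : Par ε y2 ρ) (hX : nq X ≤ ε) (h : mf y2 none X = 0) (j : Bool × Fin 7) :
    mf y2 (some j) X ≠ 0 := fun k => tt_sd_ne hP hX (zero_beh k) h

end Vale.Agent.P300LG
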