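import Vale.Agent.P300LG.Full
import Vale.Agent.P300LZ.Mod
import Vale.Agent.P300LN.Part

/-!
# P300LG: the local trivialisation
-/

open Vale.Agent.P272.K (Cm)
open Vale.Agent.P300LX

namespace Vale.Agent.P300LG

theorem Md.side {D : Dat} {A : Arr D} {y2 ρ : ℝ} {K : Set (Cm 2)} (M : Md A y2 K)
    (hP : Par A.ε y2 ρ) (s : Bool) : Nonempty (Side M s) :=
  (M.cas s).elim (P300LN.part D A y2 ρ hP K M s) fun ⟨h, ⟨P⟩⟩ => ⟨Pen.side P hP h⟩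

theorem clu : CLU := fun D A y2 ρ hP Q c => by
  obtain ⟨M, -, -⟩ := P300LZ.mod D A y2 ρ hP Q c
  obtain ⟨S₀⟩ := M.side hP false
  obtain ⟨S₁⟩ := M.side hP true
  rcases M.dl with h | ⟨α, k, h1, h2, h3⟩
  · exact ⟨_, _, triv_one h⟩
  · obtain ⟨L, e, -, -, -, u, h⟩ := Side.triv (S₀ := S₀) (S₁ := S₁) hP h1 h2 h3
    exact ⟨_, u, h⟩

end Vale.Agent.P300LG
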