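import Vale.Agent.P300LG.Deg
import Vale.Agent.P300LX.Top

/-!
# P300LG: the blocks of the local trivialisation
-/

open Set Complex
open Vale.Agent.P272.K (Cm)
open Vale.Agent.P300LX Vale.Agent.P300LX.Dat
open Vale.Agent.P288.BQ (act)

noncomputable section

namespace Vale.Agent.P300LG

/-- a fourfold point in `K` -/
structure Pen (D : Dat) (K : Set (Cm 2)) (Y : Cm 2 → Cm 2) where
  p : D.S
  a : Cm 2 → ℂ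
  α : Lf
  β : Lf
  k : D.k p = 2
  int : p.1 ∈ interior K
  ca : ContinuousOn a K
  a0 : ∀ z ∈ K, a z ≠ 0
  inj : ∀ v, α v = 0 → β v = 0 → v = 0
  lin : ∀ (y : ℝ) (u : ℂ × Cm 2), bd p u ∈ K →
    a (bd p u) * lb (17 / 20, y) (Y (bd p u)) = u.1 * (α u.2 - y * β u.2)

/-- model coordinates on `K` -/
structure Md {D : Dat} (A : Arr D) (y2 : ℝ) (K : Set (Cm 2)) where
  X : Cm 2 → Cm 2
  V : Cm 2 → ℂ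
  S : Bool → Finset (Fin 7)
  cpt : IsCompact K
  cvx : Convex ℝ K
  sub : K ⊆ D.Om
  cX : ContinuousOn X K
  nX : ∀ z ∈ K, nq (X z) ≤ A.ε
  cV : ContinuousOn V K
  V0 : ∀ z ∈ K, V z ≠ 0
  h_eq : ∀ z ∈ K, D.h z = V z ^ 2 * ∏ s, ∏ i ∈ S s, lb (bb y2 i) (sd s (X z))
  dl : (∀ α, ∀ z ∈ K, ev (A.fm (.inr α)) z ≠ 0) ∨ ∃ α, ∃ k : Cm 2 → ℂ, ContinuousOn k K ∧
    (∀ z ∈ K, k z ≠ 0 ∧ ev (A.fm (.inr α)) z = k z * tt (X z)) ∧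
    ∀ β, β ≠ α → ∀ z ∈ K, ev (A.fm (.inr β)) z ≠ 0
  cas : ∀ s, (4 ∉ S s ∨ 5 ∉ S s ∨ 6 ∉ S s ∨ 0 ∉ S s ∨ (2 ∉ S s ∧ 3 ∉ S s)) ∨
    (S s = Finset.univ ∧ Nonempty (Pen D K fun z => sd s (X z)))

variable {D : Dat} {A : Arr D} {y2 : ℝ} {K : Set (Cm 2)}

/-- the product of the lines of one side -/
def Md.pd (M : Md A y2 K) (s : Bool) (z : Cm 2) : ℂ := ∏ i ∈ M.S s, lb (bb y2 i) (sd s (M.X z))

/-- A closed set `Cut` on which `t` has a logarithm and off which the product of the lines of the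
side `s` has a root. -/
structure Side (M : Md A y2 K) (s : Bool) where
  Cut : Set D.Xh
  τ : D.Xh → ℂ
  ω : D.Xh → ℂ
  σ : D.Xh → ℂ
  L : D.Xh → ℂ
  R : Cm 2 → ℂ
  sub : Cut ⊆ π ⁻¹' K
  cl : IsClosed Cut
  cτ : ContinuousOn τ (π ⁻¹' K \ Cut)
  cω : ContinuousOn ω (π ⁻¹' K \ Cut)
  cσ : ContinuousOn σ (π ⁻¹' K \ Cut)
  σ0 : ∀ y ∈ π ⁻¹' K \ Cut, σ y ≠ 0
  w_eq : ∀ y ∈ π ⁻¹' K \ Cut, w y = τ y * ω y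
  rt_eq : ∀ y ∈ π ⁻¹' K \ Cut, τ y * σ y = R (π y)
  sq : ∀ y ∈ π ⁻¹' K \ Cut, (τ y * σ y) ^ 2 = M.pd s (π y)
  ex : ∀ y ∈ π ⁻¹' K \ Cut, τ y = 0 → ω y ^ 2 = M.V (π y) ^ 2 * σ y ^ 2 * M.pd (!s) (π y)
  cL : ContinuousOn L Cut
  eL : ∀ y ∈ Cut, exp (L y) = tt (sd s (M.X (π y)))
  pos : ∀ y ∈ Cut, 0 < qq (sd s (M.X (π y)))

/-- model coordinates exist -/
def MOD : Prop :=
  ∀ (D : Dat) (A : Arr D) (y2 ρ : ℝ), Par A.ε y2 ρ → ∀ (Q : Clu A y2 ρ) (c : Q.C),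
    ∃ M : Md A y2 (KK A.ε ρ (Q.m c)), (∀ z, M.X z = act (Q.m c) z) ∧
      ∀ s i, i ∈ M.S s ↔ ∃ L, Q.ty L = some (s, i) ∧ A.Meets L (KK A.ε ρ (Q.m c))

/-- a side with a missing line -/
def PART : Prop :=
  ∀ (D : Dat) (A : Arr D) (y2 ρ : ℝ), Par A.ε y2 ρ → ∀ (K : Set (Cm 2)) (M : Md A y2 K) (s : Bool),
    (4 ∉ M.S s ∨ 5 ∉ M.S s ∨ 6 ∉ M.S s ∨ 0 ∉ M.S s ∨ (2 ∉ M.S s ∧ 3 ∉ M.S s)) →
      Nonempty (Side M s)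

end Vale.Agent.P300LG
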