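import Vale.Agent.P300LG.Side

/-!
# P300LG: a side with all lines
-/

open Set Filter Topology Complex
open scoped ComplexConjugate
open Vale.Agent.P272.K (Cm)
open Vale.Agent.P300LX Vale.Agent.P300LX.Dat

noncomputable section

namespace Vale.Agent.P300LG

/-- the principal root -/
def rt (z : ℂ) : ℂ := exp (log z / 2)

theorem rt_ne (z : ℂ) : rt z ≠ 0 := exp_ne_zero _

theorem rt_sq {z : ℂ} (h : z ∈ slitPlane) : rt z ^ 2 = z := by
  rw [rt, ← exp_nat_mul, ← mul_div_assoc, Nat.cast_ofNat, mul_div_cancel_left₀ _ two_ne_zero,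
    exp_log (slitPlane_ne_zero h)]

theorem rt_cont {X : Type} [TopologicalSpace X] {f : X → ℂ} {s : Set X} (h : ContinuousOn f s)
    (k : ∀ x ∈ s, f x ∈ slitPlane) : ContinuousOn (fun x => rt (f x)) s :=
  ((h.clog k).div_const 2).cexp

theorem slit_mul {z : ℂ} {r : ℝ} (hr : 0 < r) : r * z ∈ slitPlane ↔ z ∈ slitPlane := by
  simp only [mem_slitPlane_iff, re_ofReal_mul, im_ofReal_mul, mul_pos_iff_of_pos_left hr, ne_eq,
    mul_eq_zero, hr.ne', false_or]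

theorem nn_pos {v : Cm 2} (h : v ≠ 0) : ∃ r : ℝ, 0 < r ∧ nn v = r := by
  have e : nn v = (normSq (v 0) + normSq (v 1) : ℝ) := by simp [nn, mul_conj]
  refine ⟨_, lt_of_le_of_ne (add_nonneg (normSq_nonneg _) (normSq_nonneg _)) fun k => nn_ne h ?_, e⟩
  rw [e, ← k, ofReal_zero]

theorem between {A B : ℂ} {a b : ℝ} (h : b < a) (k : conj (A - b * B) * (A - a * B) ∉ slitPlane) :
    ∃ η ∈ Icc b a, A = η * B := by
  by_cases e : B = 0
  · refine ⟨a, ⟨h.le, le_rfl⟩, ?_⟩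
    rw [e, mul_zero, mul_zero, sub_zero, mul_comm, mul_conj, ofReal_mem_slitPlane] at k
    rw [e, mul_zero]
    exact normSq_eq_zero.1 (le_antisymm (not_lt.1 k) (normSq_nonneg _))
  obtain ⟨z, rfl⟩ : ∃ z, A = z * B := ⟨A / B, (div_mul_cancel₀ _ e).symm⟩
  rw [show conj (z * B - b * B) * (z * B - a * B) = normSq B * (conj (z - b) * (z - a)) by
    rw [← mul_conj]; simp only [map_sub, map_mul]; ring, slit_mul (normSq_pos.2 e)] at k
  simp only [mem_slitPlane_iff, not_or, not_lt, not_not, mul_re, mul_im, conj_re, conj_im, sub_re,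
    sub_im, ofReal_re, ofReal_im] at k
  have k1 : z.im = 0 := by
    have : (a - b) * z.im = 0 := by linarith [k.2]
    exact (mul_eq_zero.1 this).resolve_left (sub_pos.2 h).ne'
  have k2 := k.1
  rw [k1] at k2
  refine ⟨z.re, ⟨by nlinarith, by nlinarith⟩, ?_⟩
  congr 1
  exact Complex.ext (by simp) (by simp [k1])

variable {D : Dat} {p : D.S} {y : D.Xh} {q : E3}

/-- an invariant of the direction at `p` -/
def RR (p : D.S) (a b : Lf) (y : D.Xh) : ℂ := a (y.1.2.2 p b).1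

@[fun_prop] theorem RR_cont (p : D.S) (a b : Lf) : Continuous (RR p a b) :=
  a.continuous.comp (cont_T p b).fst

theorem RR_eq (h : Rep p y q) (a b : Lf) :
    ∃ r : ℝ, 0 < r ∧ RR p a b y = r * (conj (b q.1.2) * a q.1.2) := by
  obtain ⟨r, hr, e⟩ := nn_pos h.cx.1
  refine ⟨r⁻¹, inv_pos.2 hr, ?_⟩
  simp only [RR, h.t, tau, sc, map_smul, smul_eq_mul, e, ofReal_inv]
  ring

theorem RR_slit (h : Rep p y q) {a b : Lf} (k : RR p a b y ∈ slitPlane) :
    b q.1.2 ≠ 0 ∧ a q.1.2 / b q.1.2 ∈ slitPlane := by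
  obtain ⟨r, hr, e⟩ := RR_eq h a b
  rw [e, slit_mul hr] at k
  have k1 : b q.1.2 ≠ 0 := fun c => by simp [c] at k
  refine ⟨k1, (slit_mul (normSq_pos.2 k1)).1 ?_⟩
  rwa [← mul_conj, show b q.1.2 * conj (b q.1.2) * (a q.1.2 / b q.1.2) =
    conj (b q.1.2) * a q.1.2 by field_simp]

theorem crd_ok {a b : Lf} (k : RR p a b y ∈ slitPlane) :
    Rep p y (crd p b y) ∧ b (crd p b y).1.2 = 1 ∧ ContinuousAt (crd p b) y := by
  obtain ⟨q, hq⟩ := ex_rep p y
  have k1 := (RR_slit hq k).1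
  have k2 : b (y.1.2.2 p b).1 ≠ 0 := by
    rw [hq.t]
    exact (l_tau_ne hq.cx.1).2 k1
  refine ⟨hq.crd_eq k1 ▸ hq.scl (inv_ne_zero k1), ?_, ?_⟩
  · rw [crd, map_smul, smul_eq_mul, inv_mul_cancel₀ k2]
  · have k : ContinuousAt (fun y : D.Xh => (b (y.1.2.2 p b).1)⁻¹) y :=
      (b.continuous.comp (cont_T p b).fst).continuousAt.inv₀ k2
    exact ((b.continuous.comp (cont_π.sub continuous_const)).continuousAt.prodMk
      (k.smul (cont_T p b).fst.continuousAt)).prodMk ((k.pow _).mul (cont_T p b).snd.continuousAt)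

variable {A : Arr D} {y2 ρ : ℝ} {K : Set (Cm 2)} {M : Md A y2 K} {s : Bool}

/-- the model coordinates seen from the side `s` -/
def Md.Y (M : Md A y2 K) (s : Bool) (z : Cm 2) : Cm 2 := sd s (M.X z)

theorem Md.cY (M : Md A y2 K) (s : Bool) : ContinuousOn (M.Y s) K :=
  (sd_cont s).comp_continuousOn M.cX

theorem Md.nY (M : Md A y2 K) (s : Bool) {z : Cm 2} (h : z ∈ K) : nq (M.Y s z) ≤ A.ε :=
  (nq_sd s _).symm ▸ M.nX z h

namespace Pen

variable (P : Pen D K (M.Y s))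

/-- the tangent of a line of the pencil -/
def n (η : ℝ) : Lf := P.α - (η : ℂ) • P.β

theorem n_eq (η : ℝ) (v : Cm 2) : P.n η v = P.α v - η * P.β v := rfl

/-- the wedge between two lines of the pencil -/
def W (a b : ℝ) : Set D.Xh := π ⁻¹' K ∩ RR P.p (P.n a) (P.n b) ⁻¹' slitPlaneᶜ

/-- the shadows of the chords -/
def C (M : Md A y2 K) (s : Bool) (i : Fin 7) : Set D.Xh :=
  π ⁻¹' K ∩ (fun y => lb (bb y2 i) (M.Y s (π y))) ⁻¹' slitPlaneᶜ

/-- the cut -/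
def Cut : Set D.Xh := P.W (4 / 5) y2 ∪ P.W (-59 / 120) (-3 / 4) ∪ (C M s 4 ∪ C M s 5 ∪ C M s 6)

theorem cl_W (a b : ℝ) : IsClosed (P.W a b) :=
  (M.cpt.isClosed.preimage cont_π).inter (isOpen_slitPlane.isClosed_compl.preimage (by fun_prop))

theorem cl_C (i : Fin 7) : IsClosed (C M s i) :=
  ((lb_cont _).comp_continuousOn ((M.cY s).comp cont_π.continuousOn fun _ h => h)
    ).preimage_isClosed_of_isClosed (M.cpt.isClosed.preimage cont_π) isOpen_slitPlane.isClosed_compl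

theorem lin' (h : π y ∈ K) (hq : Rep P.p y q) (η : ℝ) :
    P.a (π y) * lb (17 / 20, η) (M.Y s (π y)) = q.1.1 * P.n η q.1.2 := by
  rw [hq.π] at h ⊢
  exact P.lin η q.1 h

theorem lin'' (h : π y ∈ K) (hq : Rep P.p y q) (η : ℝ) :
    lb (17 / 20, η) (M.Y s (π y)) = q.1.1 * P.n η q.1.2 / P.a (π y) :=
  (eq_div_iff (P.a0 _ h)).2 ((mul_comm _ _).trans (P.lin' h hq η))

variable {P} in
theorem mem_W {a b : ℝ} (hab : b < a) (h : y ∈ P.W a b) (hq : Rep P.p y q) :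
    ∃ η ∈ Icc b a, P.α q.1.2 = η * P.β q.1.2 ∧ lb (17 / 20, η) (M.Y s (π y)) ∉ slitPlane := by
  obtain ⟨r, hr, e⟩ := RR_eq hq (P.n a) (P.n b)
  have k : RR P.p (P.n a) (P.n b) y ∉ slitPlane := h.2
  rw [e, slit_mul hr] at k
  obtain ⟨η, h1, h2 : P.α q.1.2 = η * P.β q.1.2⟩ := between hab k
  refine ⟨η, h1, h2, zero_beh ?_⟩
  have := P.lin' h.1 hq η
  rw [n_eq, h2, sub_self, mul_zero] at this
  exact (mul_eq_zero.1 this).resolve_left (P.a0 _ h.1)

variable {P} in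
theorem W₀ (hP : Par A.ε y2 ρ) (h : y ∈ P.W (4 / 5) y2) :
    0 < hp (1, 1) (M.Y s (π y)) ∧ 0 < qq (M.Y s (π y)) := by
  obtain ⟨q, hq⟩ := ex_rep P.p y
  obtain ⟨η, h1, -, h2⟩ := mem_W (by linarith [hP.y2]) h hq
  exact ⟨hA hP.e2 (hP.y1.trans h1.1) h1.2 (M.nY s h.1) h2,
    hQ hP.e2 (by linarith [hP.y1, h1.1]) h1.2 (M.nY s h.1) h2⟩

variable {P} in
theorem W₁ (hP : Par A.ε y2 ρ) (h : y ∈ P.W (-59 / 120) (-3 / 4)) :
    0 < hp (7, -3) (M.Y s (π y)) ∧ 0 < qq (M.Y s (π y)) := by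
  obtain ⟨q, hq⟩ := ex_rep P.p y
  obtain ⟨η, h1, -, h2⟩ := mem_W (by norm_num) h hq
  exact ⟨hB hP.e2 h1.1 (by linarith [h1.2]) (M.nY s h.1) h2,
    hQ hP.e2 h1.1 (by linarith [h1.2]) (M.nY s h.1) h2⟩

variable {P} in
theorem W_disj (hP : Par A.ε y2 ρ) (h : y ∈ P.W (4 / 5) y2) : y ∉ P.W (-59 / 120) (-3 / 4) :=
  fun h' => by
  obtain ⟨q, hq⟩ := ex_rep P.p y
  obtain ⟨η, h1, h2, -⟩ := mem_W (by linarith [hP.y2]) h hq
  obtain ⟨η', h3, h4, -⟩ := mem_W (by norm_num) h' hq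
  have k : (η - η' : ℂ) ≠ 0 := by
    exact_mod_cast (show 0 < η - η' by linarith [h1.1, h3.2, hP.y1]).ne'
  have k1 : P.β q.1.2 = 0 := (mul_eq_zero.1 (by linear_combination h4 - h2)).resolve_left k
  exact hq.cx.1 (P.inj _ (by rw [h2, k1, mul_zero]) k1)

open Classical in
/-- the logarithm of `t` on the cut -/
def L (y : D.Xh) : ℂ :=
  if y ∈ P.W (4 / 5) y2 then log (tt (M.Y s (π y))) else if y ∈ P.W (-59 / 120) (-3 / 4) then
    log (tt (M.Y s (π y))) - 2 * Real.pi * I else log (-tt (M.Y s (π y))) - Real.pi * I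

theorem slit₀ {X : Cm 2} {n : ℝ × ℝ} (hn : 0 < n.1) (h : 0 < hp n X) : tt X ∈ slitPlane := by
  refine or_iff_not_imp_right.2 fun k => ?_
  rw [hp, not_not.1 k, mul_zero, sub_zero] at h
  exact (mul_pos_iff_of_pos_left hn).1 h

theorem mem_C (hP : Par A.ε y2 ρ) (h : y ∈ C M s 4 ∪ C M s 5 ∪ C M s 6) :
    π y ∈ K ∧ -tt (M.Y s (π y)) ∈ slitPlane ∧ 0 < qq (M.Y s (π y)) ∧
      (0 < hp (1, 1) (M.Y s (π y)) → (tt (M.Y s (π y))).im < 0) ∧
      (0 < hp (7, -3) (M.Y s (π y)) → 0 < (tt (M.Y s (π y))).im) := by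
  rcases h with (h | h) | h
  · obtain ⟨a, b, c⟩ := h4 hP.e2 (M.nY s h.1) h.2
    simp only [hp, zero_mul, one_mul, zero_sub, neg_lt_zero] at b
    exact ⟨h.1, .inr (by rw [neg_im]; linarith), c, fun k => absurd a k.not_gt, fun _ => b⟩
  · obtain ⟨a, b, c⟩ := h5 hP.e2 (M.nY s h.1) h.2
    refine ⟨h.1, or_iff_not_imp_right.2 fun k => ?_, c, fun k => absurd a k.not_gt,
      fun k => absurd b k.not_gt⟩
    rw [neg_im, not_not, neg_eq_zero] at k
    simp only [hp, k, one_mul, sub_zero] at a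
    rw [neg_re]
    linarith
  · obtain ⟨a, b, c⟩ := h6 hP.e2 (M.nY s h.1) h.2
    simp only [hp, zero_mul, one_mul, zero_sub, neg_pos] at b
    exact ⟨h.1, .inr (by rw [neg_im]; linarith), c, fun _ => b, fun k => absurd a k.not_gt⟩

theorem L_W₀ (h : y ∈ P.W (4 / 5) y2) : P.L y = log (tt (M.Y s (π y))) := if_pos h

theorem L_W₁ (hP : Par A.ε y2 ρ) (h : y ∈ P.W (-59 / 120) (-3 / 4)) :
    P.L y = log (tt (M.Y s (π y))) - 2 * Real.pi * I :=
  (if_neg fun k => W_disj hP k h).trans (if_pos h)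

theorem L_C (hP : Par A.ε y2 ρ) (h : y ∈ C M s 4 ∪ C M s 5 ∪ C M s 6) :
    P.L y = log (-tt (M.Y s (π y))) - Real.pi * I := by
  obtain ⟨-, -, -, a, b⟩ := mem_C hP h
  rw [L]
  split_ifs with k1 k2
  · rw [log, log, norm_neg, arg_neg_eq_arg_add_pi_of_im_neg (a (W₀ hP k1).1)]
    push_cast
    ring
  · rw [log, log, norm_neg, arg_neg_eq_arg_sub_pi_of_im_pos (b (W₁ hP k2).1)]
    push_cast
    ring
  · rfl

theorem cL (hP : Par A.ε y2 ρ) : ContinuousOn P.L P.Cut := by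
  have c : ContinuousOn (fun y : D.Xh => tt (M.Y s (π y))) (π ⁻¹' K) :=
    tt_cont.comp_continuousOn ((M.cY s).comp cont_π.continuousOn fun _ h => h)
  refine (ContinuousOn.union_of_isClosed ?_ ?_ (P.cl_W _ _) (P.cl_W _ _)).union_of_isClosed ?_
    ((P.cl_W _ _).union (P.cl_W _ _)) (((cl_C 4).union (cl_C 5)).union (cl_C 6))
  · exact ((c.mono inter_subset_left).clog fun y h => slit₀ one_pos (W₀ hP h).1).congr
      fun y h => P.L_W₀ h
  · exact (((c.mono inter_subset_left).clog fun y h => slit₀ (by norm_num) (W₁ hP h).1).sub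
      continuousOn_const).congr fun y h => P.L_W₁ hP h
  · exact ((((c.mono fun y h => (mem_C hP h).1).neg).clog fun y h => (mem_C hP h).2.1).sub
      continuousOn_const).congr fun y h => P.L_C hP h

theorem eL (hP : Par A.ε y2 ρ) (h : y ∈ P.Cut) : exp (P.L y) = tt (M.Y s (π y)) := by
  rcases h with (h | h) | h
  · rw [P.L_W₀ h, exp_log (slitPlane_ne_zero (slit₀ one_pos (W₀ hP h).1))]
  · rw [P.L_W₁ hP h, exp_sub, exp_two_pi_mul_I, div_one,
      exp_log (slitPlane_ne_zero (slit₀ (by norm_num) (W₁ hP h).1))]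
  · rw [P.L_C hP h, exp_sub, exp_pi_mul_I, exp_log (slitPlane_ne_zero (mem_C hP h).2.1)]
    ring

/-- the normalised coordinates -/
def c (y : D.Xh) : E3 := crd P.p (P.n y2) y

/-- the root of the product of the chords -/
def r (M : Md A y2 K) (s : Bool) (z : Cm 2) : ℂ :=
  rt (lb (bb y2 4) (M.Y s z)) * rt (lb (bb y2 5) (M.Y s z)) * rt (lb (bb y2 6) (M.Y s z))

/-- the root of the product of the tangents -/
def σ (v : Cm 2) : ℂ :=
  rt (P.n (4 / 5) v) * (P.n (-3 / 4) v * rt (P.n (-59 / 120) v / P.n (-3 / 4) v))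

variable {P} in
theorem off (h : y ∈ π ⁻¹' K \ P.Cut) : Rep P.p y (P.c y) ∧ P.n y2 (P.c y).1.2 = 1 ∧
    ContinuousAt P.c y ∧ P.n (4 / 5) (P.c y).1.2 ∈ slitPlane ∧ P.n (-3 / 4) (P.c y).1.2 ≠ 0 ∧
    P.n (-59 / 120) (P.c y).1.2 / P.n (-3 / 4) (P.c y).1.2 ∈ slitPlane ∧
    lb (bb y2 4) (M.Y s (π y)) ∈ slitPlane ∧ lb (bb y2 5) (M.Y s (π y)) ∈ slitPlane ∧
    lb (bb y2 6) (M.Y s (π y)) ∈ slitPlane := by
  have a : RR P.p (P.n (4 / 5)) (P.n y2) y ∈ slitPlane :=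
    not_not.1 fun k => h.2 (.inl (.inl ⟨h.1, k⟩))
  have b : RR P.p (P.n (-59 / 120)) (P.n (-3 / 4)) y ∈ slitPlane :=
    not_not.1 fun k => h.2 (.inl (.inr ⟨h.1, k⟩))
  obtain ⟨k1, k2, k3⟩ := crd_ok a
  have k4 := (RR_slit k1 a).2
  rw [k2, div_one] at k4
  exact ⟨k1, k2, k3, k4, (RR_slit k1 b).1, (RR_slit k1 b).2,
    not_not.1 fun k => h.2 (.inr (.inl (.inl ⟨h.1, k⟩))),
    not_not.1 fun k => h.2 (.inr (.inl (.inr ⟨h.1, k⟩))),
    not_not.1 fun k => h.2 (.inr (.inr ⟨h.1, k⟩))⟩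

theorem pd_eq (hS : M.S s = Finset.univ) (z : Cm 2) : M.pd s z =
    lb (17 / 20, 4 / 5) (M.Y s z) * lb (17 / 20, y2) (M.Y s z) * lb (17 / 20, -59 / 120) (M.Y s z) *
      lb (17 / 20, -3 / 4) (M.Y s z) *
      (lb (bb y2 4) (M.Y s z) * lb (bb y2 5) (M.Y s z) * lb (bb y2 6) (M.Y s z)) := by
  rw [Md.pd, hS, Fin.prod_univ_seven, ← mul_assoc, ← mul_assoc]
  rfl

theorem hb_eq (hS : M.S s = Finset.univ) {v : Cm 2} (hv : v ≠ 0) : D.hb P.p (0, v) =
    M.V P.p ^ 2 * (P.n (4 / 5) v * P.n y2 v * P.n (-59 / 120) v * P.n (-3 / 4) v / P.a P.p ^ 4 *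
      (lb (bb y2 4) (M.Y s P.p) * lb (bb y2 5) (M.Y s P.p) * lb (bb y2 6) (M.Y s P.p)) *
      M.pd (!s) P.p) := by
  have b : ContinuousAt (fun t : ℂ => bd P.p (t, v)) 0 := by fun_prop
  have hK := mem_interior_iff_mem_nhds.1 P.int
  have hp := interior_subset P.int
  have c : ∀ {f : Cm 2 → ℂ}, ContinuousOn f K → ContinuousAt (fun t : ℂ => f (bd P.p (t, v))) 0 :=
    fun k => (k.continuousAt hK).comp_of_eq b (bd_zero _ _)
  have c1 : ∀ i, ContinuousAt (fun t : ℂ => lb (bb y2 i) (M.Y s (bd P.p (t, v)))) 0 :=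
    fun i => c ((lb_cont _).comp_continuousOn (M.cY s))
  have := eq_at_zero (f := fun t => D.hb P.p (t, v)) (g := fun t => M.V (bd P.p (t, v)) ^ 2 *
    (P.n (4 / 5) v * P.n y2 v * P.n (-59 / 120) v * P.n (-3 / 4) v / P.a (bd P.p (t, v)) ^ 4 *
      (lb (bb y2 4) (M.Y s (bd P.p (t, v))) * lb (bb y2 5) (M.Y s (bd P.p (t, v))) *
        lb (bb y2 6) (M.Y s (bd P.p (t, v)))) * M.pd (!s) (bd P.p (t, v))))
    ((D.hb_an P.p P.p.2 (0, v) hv ((bd_zero _ _).symm ▸ D.sub P.p.2)).continuousAt.comp_of_eq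
      (f := fun t : ℂ => (t, v)) (by fun_prop) rfl)
    (((c M.cV).pow 2).mul (((continuousAt_const.div ((c P.ca).pow 4) (pow_ne_zero 4 (by
      simpa [bd_zero] using P.a0 _ hp))).mul (((c1 4).mul (c1 5)).mul (c1 6))).mul
      (c (continuousOn_finsetProd _ fun i _ => (lb_cont _).comp_continuousOn (M.cY (!s))))))
    ?_
  · simpa only [bd_zero] using this
  filter_upwards [b.eventually ((bd_zero P.p.1 v).symm ▸ hK)] with t ht t0
  have e := D.hb_eq P.p P.p.2 (t, v) hv (M.sub ht)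
  rw [M.h_eq' s ht, pd_eq hS, P.k] at e
  have a0 := P.a0 _ ht
  have l : ∀ η : ℝ, lb (17 / 20, η) (M.Y s (bd P.p (t, v))) = t * P.n η v / P.a (bd P.p (t, v)) :=
    fun η => (eq_div_iff a0).2 ((mul_comm _ _).trans (P.lin η (t, v) ht))
  simp only [l] at e
  refine mul_left_cancel₀ (pow_ne_zero 4 t0) (e.symm.trans ?_)
  field_simp

/-- the side with all lines -/
def side (hP : Par A.ε y2 ρ) (hS : M.S s = Finset.univ) : Side M s where
  Cut := P.Cut
  τ y := (P.c y).1.1 ^ 2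
  ω y := (P.c y).2
  σ y := P.σ (P.c y).1.2 / P.a (π y) ^ 2 * r M s (π y)
  L := P.L
  R z := lb (17 / 20, y2) (M.Y s z) *
    rt (lb (17 / 20, 4 / 5) (M.Y s z) / lb (17 / 20, y2) (M.Y s z)) *
    (lb (17 / 20, -3 / 4) (M.Y s z) *
      rt (lb (17 / 20, -59 / 120) (M.Y s z) / lb (17 / 20, -3 / 4) (M.Y s z))) * r M s z
  sub := union_subset (union_subset inter_subset_left inter_subset_left) fun _ h => (mem_C hP h).1
  cl := ((P.cl_W _ _).union (P.cl_W _ _)).union (((cl_C 4).union (cl_C 5)).union (cl_C 6))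
  cτ _ h := ((off h).2.2.1.fst.fst.pow 2).continuousWithinAt
  cω _ h := (off h).2.2.1.snd.continuousWithinAt
  cσ := by
    have c : ∀ η, ContinuousOn (fun y => P.n η (P.c y).1.2) (π ⁻¹' K \ P.Cut) := fun η _ h =>
      ((P.n η).continuous.continuousAt.comp (off h).2.2.1.fst.snd).continuousWithinAt
    have c1 : ∀ i, ContinuousOn (fun y : D.Xh => lb (bb y2 i) (M.Y s (π y))) (π ⁻¹' K \ P.Cut) :=
      fun i => (lb_cont _).comp_continuousOn ((M.cY s).comp cont_π.continuousOn fun _ h => h.1)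
    exact (((rt_cont (c _) fun _ h => (off h).2.2.2.1).mul ((c _).mul (rt_cont ((c _).div (c _)
      fun _ h => (off h).2.2.2.2.1) fun _ h => (off h).2.2.2.2.2.1))).div
      ((P.ca.comp cont_π.continuousOn fun _ h => h.1).pow 2) fun _ h =>
        pow_ne_zero 2 (P.a0 _ h.1)).mul (((rt_cont (c1 4) fun _ h => (off h).2.2.2.2.2.2.1).mul
      (rt_cont (c1 5) fun _ h => (off h).2.2.2.2.2.2.2.1)).mul
      (rt_cont (c1 6) fun _ h => (off h).2.2.2.2.2.2.2.2))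
  σ0 _ h := mul_ne_zero (div_ne_zero (mul_ne_zero (rt_ne _) (mul_ne_zero (off h).2.2.2.2.1
    (rt_ne _))) (pow_ne_zero 2 (P.a0 _ h.1))) (mul_ne_zero (mul_ne_zero (rt_ne _) (rt_ne _))
    (rt_ne _))
  w_eq _ h := (off h).1.w'.trans (by rw [P.k])
  rt_eq y h := by
    have l := P.lin'' h.1 (off h).1
    have a0 := P.a0 _ h.1
    simp only [l, (off h).2.1, σ]
    by_cases e : (P.c y).1.1 = 0
    · simp [e]
    · rw [div_div_div_cancel_right₀ a0, div_div_div_cancel_right₀ a0, mul_div_mul_left _ _ e,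
        mul_div_mul_left _ _ e, div_one]
      field_simp
  sq y h := by
    have l := P.lin'' h.1 (off h).1
    have a0 := P.a0 _ h.1
    obtain ⟨-, k1, -, k2, k3, k4, k5, k6, k7⟩ := off h
    simp only [pd_eq hS, l, k1, σ, r, mul_pow, div_pow, rt_sq k2, rt_sq k4, rt_sq k5, rt_sq k6,
      rt_sq k7]
    field_simp
  ex y h e := by
    obtain ⟨k0, k1, -, k2, k3, k4, k5, k6, k7⟩ := off h
    have e1 := pow_eq_zero_iff two_ne_zero |>.1 e
    have e2 := k0.π_iff.2 e1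
    have e3 := k0.cx.2.2
    rw [show (P.c y).1 = (0, (P.c y).1.2) from Prod.ext e1 rfl, P.hb_eq hS k0.cx.1, ← e2] at e3
    have a0 := P.a0 _ h.1
    simp only [e3, k1, σ, r, mul_pow, div_pow, rt_sq k2, rt_sq k4, rt_sq k5, rt_sq k6, rt_sq k7]
    field_simp
  cL := P.cL hP
  eL _ h := P.eL hP h
  pos _ h := by
    rcases h with (h | h) | h
    exacts [(W₀ hP h).2, (W₁ hP h).2, (mem_C hP h).2.2.1]

end Pen

end Vale.Agent.P300LG
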