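import Vale.Agent.P300LG.Defs2

/-!
# P300LG: the trivialisation from the two sides
-/

open Set Filter Topology Complex
open Vale.Agent.P272.K (Cm)
open Vale.Agent.P300LX Vale.Agent.P300LX.Dat

noncomputable section

namespace Vale.Agent.P300LG

theorem tietze {X : Type} [TopologicalSpace X] [T2Space X] {T C : Set X} (hT : IsCompact T)
    (hC : IsClosed C) (h : C ⊆ T) {f : X → ℂ} (hf : ContinuousOn f C) :
    ∃ g : X → ℂ, ContinuousOn g T ∧ ∀ x ∈ C, g x = f x := by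
  classical
  have := isCompact_iff_compactSpace.1 hT
  obtain ⟨g, hg⟩ := ContinuousMap.exists_restrict_eq (X := T) (Y := ℂ)
    (hC.preimage continuous_subtype_val) ⟨fun x => f x.1.1,
      hf.comp_continuous (continuous_subtype_val.comp continuous_subtype_val) fun x => x.2⟩
  refine ⟨fun x => if k : x ∈ T then g ⟨x, k⟩ else 0, ?_, fun x hx => ?_⟩
  · rw [continuousOn_iff_continuous_domRestrict]
    exact g.continuous.congr fun x => by simp [x.2]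
  · simp only [dif_pos (h hx)]
    exact DFunLike.congr_fun hg ⟨⟨x, h hx⟩, hx⟩

@[fun_prop] theorem ev_cont (a : Af) : Continuous (ev a) := continuous_const.add a.2.continuous

@[fun_prop] theorem tt_cont : Continuous tt := by
  unfold tt
  fun_prop

@[fun_prop] theorem lb_cont (b : ℝ × ℝ) : Continuous (lb b) := by
  unfold lb
  fun_prop

@[fun_prop] theorem sd_cont (s : Bool) : Continuous (sd s) := by
  cases s
  · exact continuous_id
  · refine continuous_pi fun a => ?_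
    fin_cases a
    · exact continuous_const.mul (continuous_apply 1)
    · exact continuous_const.mul (continuous_apply 0)

variable {D : Dat} {A : Arr D} {y2 ρ : ℝ} {K : Set (Cm 2)} {M : Md A y2 K} {y : D.Xh}

theorem Md.h_eq' (M : Md A y2 K) (s : Bool) {z : Cm 2} (hz : z ∈ K) :
    D.h z = M.V z ^ 2 * (M.pd s z * M.pd (!s) z) := by
  rw [M.h_eq z hz, Fintype.prod_bool]
  cases s
  · exact congrArg _ (mul_comm _ _)
  · rfl

theorem Md.cπ (M : Md A y2 K) : ContinuousOn (fun y : D.Xh => M.X (π y)) (π ⁻¹' K) :=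
  M.cX.comp cont_π.continuousOn fun _ h => h

namespace Side

theorem ex' {s : Bool} (S : Side M s) (h : y ∈ π ⁻¹' K \ S.Cut) :
    S.ω y ^ 2 = M.V (π y) ^ 2 * S.σ y ^ 2 * M.pd (!s) (π y) := by
  by_cases e : S.τ y = 0
  · exact S.ex y h e
  have k := w_sq y
  rw [M.h_eq' s h.1, S.w_eq y h, ← S.sq y h] at k
  refine mul_left_cancel₀ (pow_ne_zero 2 e) ?_
  linear_combination k

theorem beh {s : Bool} (S : Side M s) (h : y ∈ π ⁻¹' K \ S.Cut) (e : S.τ y = 0) :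
    ∃ i, lb (bb y2 i) (sd s (M.X (π y))) ∉ slitPlane := by
  have k := S.sq y h
  rw [e, zero_mul, zero_pow two_ne_zero] at k
  obtain ⟨i, -, hi⟩ := Finset.prod_eq_zero_iff.1 k.symm
  exact ⟨i, zero_beh hi⟩

variable (S₀ : Side M false) (S₁ : Side M true)

/-- the complement of the cuts -/
def U : Set D.Xh := π ⁻¹' K \ (S₀.Cut ∪ S₁.Cut)

/-- the sheet near the first side -/
def F₀ (y : D.Xh) : ℂ := S₀.ω y / (M.V (π y) * S₀.σ y * (S₁.τ y * S₁.σ y))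

/-- the sheet near the second side -/
def F₁ (y : D.Xh) : ℂ := S₁.ω y / (M.V (π y) * S₁.σ y * (S₀.τ y * S₀.σ y))

open Classical in
/-- the sheet -/
def ψ (y : D.Xh) : ℂ := if S₁.τ y = 0 then F₁ S₀ S₁ y else F₀ S₀ S₁ y

open Classical in
/-- the trivialisation -/
def ff (L : D.Xh → ℂ) (e : ℂ) (y : D.Xh) : ℂ :=
  if y ∈ U S₀ S₁ ∧ ψ S₀ S₁ y = e then tt (M.X (π y)) * exp (-L y) else 1

variable {S₀ S₁}

theorem U₀ (h : y ∈ U S₀ S₁) : y ∈ π ⁻¹' K \ S₀.Cut := ⟨h.1, fun k => h.2 (.inl k)⟩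

theorem U₁ (h : y ∈ U S₀ S₁) : y ∈ π ⁻¹' K \ S₁.Cut := ⟨h.1, fun k => h.2 (.inr k)⟩

theorem tau_ne (hP : Par A.ε y2 ρ) (h : y ∈ U S₀ S₁) (e : S₁.τ y = 0) : S₀.τ y ≠ 0 := fun e' => by
  obtain ⟨i, hi⟩ := S₀.beh (U₀ h) e'
  obtain ⟨j, hj⟩ := S₁.beh (U₁ h) e
  exact absurd (side_eq hP (M.nX _ h.1) hi hj) (by decide)

theorem ψ₀ (h : S₁.τ y ≠ 0) : ψ S₀ S₁ y = F₀ S₀ S₁ y := if_neg h

theorem ψ₁ (h : y ∈ U S₀ S₁) (e : S₀.τ y ≠ 0) : ψ S₀ S₁ y = F₁ S₀ S₁ y := by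
  by_cases k : S₁.τ y = 0
  · exact if_pos k
  have k0 := S₀.σ0 y (U₀ h)
  have k1 := S₁.σ0 y (U₁ h)
  have k2 := M.V0 _ h.1
  have k3 := (S₀.w_eq y (U₀ h)).symm.trans (S₁.w_eq y (U₁ h))
  rw [ψ₀ k, F₀, F₁]
  field_simp
  linear_combination k3

theorem ψ_sq (hP : Par A.ε y2 ρ) (h : y ∈ U S₀ S₁) : ψ S₀ S₁ y ^ 2 = 1 := by
  have k0 := S₀.σ0 y (U₀ h)
  have k1 := S₁.σ0 y (U₁ h)
  have k2 := M.V0 _ h.1
  by_cases k : S₁.τ y = 0
  · have k3 := tau_ne hP h k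
    rw [ψ₁ h k3, F₁, div_pow, S₁.ex' (U₁ h), Bool.not_true, ← S₀.sq y (U₀ h)]
    field_simp
  · rw [ψ₀ k, F₀, div_pow, S₀.ex' (U₀ h), Bool.not_false, ← S₁.sq y (U₁ h)]
    field_simp

theorem ψ_cont (hP : Par A.ε y2 ρ) : ContinuousOn (ψ S₀ S₁) (U S₀ S₁) := fun y h => by
  have cV : ContinuousWithinAt (fun y : D.Xh => M.V (π y)) (U S₀ S₁) y :=
    (M.cV.comp cont_π.continuousOn fun _ (k : _ ∈ U S₀ S₁) => k.1) y h
  have a : ∀ {f : D.Xh → ℂ}, ContinuousOn f (π ⁻¹' K \ S₀.Cut) →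
    ContinuousWithinAt f (U S₀ S₁) y := fun k => k.mono (fun _ => U₀) y h
  have b : ∀ {f : D.Xh → ℂ}, ContinuousOn f (π ⁻¹' K \ S₁.Cut) →
    ContinuousWithinAt f (U S₀ S₁) y := fun k => k.mono (fun _ => U₁) y h
  have k0 := S₀.σ0 y (U₀ h)
  have k1 := S₁.σ0 y (U₁ h)
  have k2 := M.V0 _ h.1
  by_cases k : S₁.τ y = 0
  · have k3 := tau_ne hP h k
    refine ContinuousWithinAt.congr_of_eventuallyEq (f := F₁ S₀ S₁)
      ((b S₁.cω).div ((cV.mul (b S₁.cσ)).mul ((a S₀.cτ).mul (a S₀.cσ)))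
        (mul_ne_zero (mul_ne_zero k2 k1) (mul_ne_zero k3 k0))) ?_ (ψ₁ h k3)
    filter_upwards [(a S₀.cτ).eventually_ne k3, self_mem_nhdsWithin] with x h1 h2 using ψ₁ h2 h1
  · refine ContinuousWithinAt.congr_of_eventuallyEq (f := F₀ S₀ S₁)
      ((a S₀.cω).div ((cV.mul (a S₀.cσ)).mul ((b S₁.cτ).mul (b S₁.cσ)))
        (mul_ne_zero (mul_ne_zero k2 k0) (mul_ne_zero k k1))) ?_ (ψ₀ k)
    filter_upwards [(b S₁.cτ).eventually_ne k] with x h1 using ψ₀ h1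

theorem U_nhds (h : y ∈ U S₀ S₁) : U S₀ S₁ ∈ 𝓝[π ⁻¹' K] y :=
  inter_mem_nhdsWithin _ ((S₀.cl.union S₁.cl).isOpen_compl.mem_nhds h.2)

theorem ψ_ev (hP : Par A.ε y2 ρ) (h : y ∈ U S₀ S₁) :
    ∀ᶠ x in 𝓝[π ⁻¹' K] y, x ∈ U S₀ S₁ ∧ ψ S₀ S₁ x = ψ S₀ S₁ y := by
  have k : ψ S₀ S₁ y + ψ S₀ S₁ y ≠ 0 := fun e => by
    have := ψ_sq hP h
    rw [add_self_eq_zero.1 e] at this
    simp at this
  have k1 := ((ψ_cont hP y h).mono_of_mem_nhdsWithin (U_nhds h)).add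
    (continuousWithinAt_const (b := ψ S₀ S₁ y))
  filter_upwards [U_nhds h, k1.eventually_ne k] with x h1 h2
  refine ⟨h1, sub_eq_zero.1 ((mul_eq_zero.1 ?_).resolve_right h2)⟩
  simp only [Pi.add_apply]
  linear_combination ψ_sq hP h1 - ψ_sq hP h

theorem ex_log : ∃ L : D.Xh → ℂ, ContinuousOn L (π ⁻¹' K) ∧ (∀ y ∈ S₀.Cut, L y = S₀.L y) ∧
    ∀ y ∈ S₀.Cut ∪ S₁.Cut, exp (L y) = tt (M.X (π y)) := by
  classical
  have d : ∀ y ∈ S₁.Cut, y ∉ S₀.Cut := fun y h1 h0 => by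
    have a := S₀.pos y h0
    have b := S₁.pos y h1
    rw [show sd true (M.X (π y)) = rr (M.X (π y)) from rfl, qq_rr] at b
    exact absurd a (not_lt.2 (neg_pos.1 b).le)
  obtain ⟨L, h1, h2⟩ := tietze (isCompact_pre M.cpt M.sub) (S₀.cl.union S₁.cl)
    (union_subset S₀.sub S₁.sub)
    (f := fun y => if y ∈ S₀.Cut then S₀.L y else S₁.L y + Real.pi * I)
    ((S₀.cL.congr fun y h => if_pos h).union_of_isClosed
      ((S₁.cL.add continuousOn_const).congr fun y h => if_neg (d y h)) S₀.cl S₁.cl)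
  refine ⟨L, h1, fun y h => (h2 y (.inl h)).trans (if_pos h), fun y h => ?_⟩
  rw [h2 y h]
  rcases h with h | h
  · rw [if_pos h]
    exact S₀.eL y h
  · rw [if_neg (d y h), exp_add, S₁.eL y h, exp_pi_mul_I,
      show sd true (M.X (π y)) = rr (M.X (π y)) from rfl, tt_rr]
    ring

variable {L : D.Xh → ℂ} {e : ℂ}

theorem ff_cont (hP : Par A.ε y2 ρ) (h1 : ContinuousOn L (π ⁻¹' K))
    (h2 : ∀ y ∈ S₀.Cut ∪ S₁.Cut, exp (L y) = tt (M.X (π y))) :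
    ContinuousOn (ff S₀ S₁ L e) (π ⁻¹' K) := fun y h => by
  have g : ContinuousWithinAt (fun y => tt (M.X (π y)) * exp (-L y)) (π ⁻¹' K) y :=
    ((tt_cont.comp_continuousOn M.cπ).mul h1.neg.cexp) y h
  by_cases k : y ∈ U S₀ S₁
  · by_cases k1 : ψ S₀ S₁ y = e
    · refine g.congr_of_eventuallyEq ?_ (if_pos ⟨k, k1⟩)
      filter_upwards [ψ_ev hP k] with x hx using if_pos ⟨hx.1, hx.2.trans k1⟩
    · refine continuousWithinAt_const.congr_of_eventuallyEq (f := fun _ => 1) ?_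
        (if_neg fun c => k1 c.2)
      filter_upwards [ψ_ev hP k] with x hx using if_neg fun c => k1 (hx.2.symm.trans c.2)
  · have k1 : tt (M.X (π y)) * exp (-L y) = 1 := by
      rw [← h2 y (not_not.1 fun c => k ⟨h, c⟩), ← exp_add, add_neg_cancel, exp_zero]
    rw [ContinuousWithinAt, show ff S₀ S₁ L e y = 1 from if_neg fun c => k c.1]
    rw [ContinuousWithinAt, k1] at g
    refine fun s hs => mem_map.2 ?_
    filter_upwards [mem_map.1 (g hs)] with x hx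
    rw [mem_preimage, ff]
    split_ifs
    exacts [hx, mem_of_mem_nhds hs]

/-- the sheets over the mirror -/
theorem ex_sign (hP : Par A.ε y2 ρ) {α : A.κ} {k : Cm 2 → ℂ}
    (hk : ∀ z ∈ K, k z ≠ 0 ∧ ev (A.fm (.inr α)) z = k z * tt (M.X z)) :
    ∃ e : ℂ, e ^ 2 = 1 ∧ ∀ y, π y ∈ K → ev (A.fm (.inr α)) (π y) = 0 →
      y ∈ U S₀ S₁ ∧ (ψ S₀ S₁ y = e ↔ w y = A.sd α (π y)) := by
  have a : ∀ y : D.Xh, π y ∈ K → ev (A.fm (.inr α)) (π y) = 0 → y ∈ U S₀ S₁ ∧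
      ψ S₀ S₁ y = w y / (M.V (π y) * S₀.R (π y) * S₁.R (π y)) := fun y h h0 => by
    have t0 : tt (M.X (π y)) = 0 := by
      rw [(hk _ h).2] at h0
      exact (mul_eq_zero.1 h0).resolve_left (hk _ h).1
    have hU : y ∈ U S₀ S₁ := ⟨h, fun c => by
      rcases c with c | c
      · exact exp_ne_zero _ ((S₀.eL y c).trans t0)
      · exact exp_ne_zero _ ((S₁.eL y c).trans ((tt_rr _).trans (by rw [t0, neg_zero])))⟩
    have t1 : S₀.τ y ≠ 0 := fun c =>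
      let ⟨_, hi⟩ := S₀.beh (U₀ hU) c
      tt_sd_ne hP (M.nX _ h) hi t0
    have t2 : S₁.τ y ≠ 0 := fun c =>
      let ⟨_, hi⟩ := S₁.beh (U₁ hU) c
      tt_sd_ne hP (M.nX _ h) hi t0
    refine ⟨hU, ?_⟩
    rw [ψ₀ t2, F₀, ← S₀.rt_eq y (U₀ hU), ← S₁.rt_eq y (U₁ hU), S₀.w_eq y (U₀ hU)]
    field_simp
  let Z : Set (Cm 2) := K ∩ {z | ev (A.fm (.inr α)) z = 0}
  have cz : Convex ℝ Z := M.cvx.inter fun x hx z hz a b _ _ hab => by
    have h1 : (A.fm (.inr α)).1 + (A.fm (.inr α)).2 x = 0 := hx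
    have h2 : (A.fm (.inr α)).1 + (A.fm (.inr α)).2 z = 0 := hz
    have h3 : (a : ℂ) + b = 1 := by exact_mod_cast hab
    show (A.fm (.inr α)).1 + (A.fm (.inr α)).2 (a • x + b • z) = 0
    rw [map_add, ← coe_smul, ← coe_smul, map_smul, map_smul, smul_eq_mul, smul_eq_mul]
    linear_combination a * h1 + b * h2 - (A.fm (.inr α)).1 * h3
  have hz : ∀ z : Z, (z.1, A.sd α z) ∈ D.Dom0 := fun z => ⟨M.sub z.2.1, fun c =>
    let ⟨_, i, _, _, hi, _⟩ := (A.ver _).1 c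
    A.dis α (.inl i) Sum.inl_ne_inr _ (M.sub z.2.1) z.2.2 hi, A.sd_sq α _ (M.sub z.2.1) z.2.2⟩
  have := isPreconnected_iff_preconnectedSpace.1 cz.isPreconnected
  have c1 : Continuous fun z : Z => ψ S₀ S₁ (pt0 ⟨_, hz z⟩) :=
    (ψ_cont hP).comp_continuous (cont_pt0.comp ((continuous_subtype_val.prodMk
      ((A.sd_cont α).comp_continuous continuous_subtype_val fun z =>
        ⟨M.sub z.2.1, z.2.2⟩)).subtype_mk hz)) fun z => (a (pt0 ⟨_, hz z⟩) z.2.1 z.2.2).1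
  obtain ⟨e, e1, e2⟩ : ∃ e : ℂ, e ^ 2 = 1 ∧ ∀ z : Z, ψ S₀ S₁ (pt0 ⟨_, hz z⟩) = e := by
    rcases isPreconnected_univ.eq_one_or_eq_neg_one_of_sq_eq c1.continuousOn
      (fun z _ => ψ_sq hP (a (pt0 ⟨_, hz z⟩) z.2.1 z.2.2).1) with c | c
    exacts [⟨1, one_pow 2, fun z => c trivial⟩, ⟨-1, neg_one_sq, fun z => c trivial⟩]
  refine ⟨e, e1, fun y h h0 => ⟨(a y h h0).1, ?_⟩⟩
  have b := (a (pt0 ⟨_, hz ⟨π y, h, h0⟩⟩) h h0).2
  rw [e2] at b
  have b' : e = A.sd α (π y) / (M.V (π y) * S₀.R (π y) * S₁.R (π y)) := b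
  have n : M.V (π y) * S₀.R (π y) * S₁.R (π y) ≠ 0 := fun c => by
    rw [b', c, div_zero] at e1
    simp at e1
  rw [(a y h h0).2, b', div_left_inj' n]

theorem triv (hP : Par A.ε y2 ρ) {α : A.κ} {k : Cm 2 → ℂ} (ck : ContinuousOn k K)
    (hk : ∀ z ∈ K, k z ≠ 0 ∧ ev (A.fm (.inr α)) z = k z * tt (M.X z))
    (hβ : ∀ β, β ≠ α → ∀ z ∈ K, ev (A.fm (.inr β)) z ≠ 0) :
    ∃ (L : D.Xh → ℂ) (e : ℂ), e ^ 2 = 1 ∧ ContinuousOn L (π ⁻¹' K) ∧
      (∀ y ∈ S₀.Cut, L y = S₀.L y) ∧ ∃ u, A.Triv K (ff S₀ S₁ L e) u := by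
  classical
  obtain ⟨L, l1, l2, l3⟩ := ex_log (S₀ := S₀) (S₁ := S₁)
  obtain ⟨e, e1, e2⟩ := ex_sign (S₀ := S₀) (S₁ := S₁) hP hk
  have cf := ff_cont (e := e) hP l1 l3
  have nf : ∀ y, π y ∈ K → (∀ β, y ∉ A.D1 β) → ff S₀ S₁ L e y ≠ 0 := fun y h hy => by
    rw [ff]
    split_ifs with c
    · refine mul_ne_zero (fun t0 => ?_) (exp_ne_zero _)
      have h0 : ev (A.fm (.inr α)) (π y) = 0 := by rw [(hk _ h).2, t0, mul_zero]
      exact hy α ⟨h0, (e2 y h h0).2.1 c.2⟩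
    · exact one_ne_zero
  have eq : ∀ β (y : D.Xh), π y ∈ K → ev (A.fm (.inr β)) (π y) = 0 → β = α := fun β y h h0 =>
    not_not.1 fun c => hβ β c _ h h0
  refine ⟨L, e, e1, l1, l2, fun β y => if ev (A.fm (.inr β)) (π y) = 0 then exp (-L y) / k (π y)
    else ff S₀ S₁ L e y / ev (A.fm (.inr β)) (π y), cf, nf, fun β y h => ?_, fun β y h hy => ?_,
    fun β y h hy => ?_⟩
  · refine ContinuousWithinAt.mono ?_ inter_subset_left
    by_cases c : ev (A.fm (.inr β)) (π y) = 0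
    · obtain rfl := eq β y h.1 c
      have c1 := e2 y h.1 c
      refine (((l1.neg.cexp.div (ck.comp cont_π.continuousOn fun _ h => h)
        fun x hx => (hk _ hx).1)) y h.1).congr_of_eventuallyEq ?_ (if_pos c)
      filter_upwards [ψ_ev hP c1.1, self_mem_nhdsWithin] with x h1 h2
      split_ifs with c2
      · rfl
      · rw [show ff S₀ S₁ L e x = _ from if_pos ⟨h1.1, h1.2.trans (c1.2.2 (h.2 β c).2)⟩]
        rw [(hk _ h2).2] at c2 ⊢
        have := right_ne_zero_of_mul c2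
        simp only [Pi.div_apply, Pi.neg_apply, Function.comp_apply]
        field_simp
    · have c1 : ContinuousAt (fun y : D.Xh => ev (A.fm (.inr β)) (π y)) y := by fun_prop
      refine ((cf y h.1).div c1.continuousWithinAt c).congr_of_eventuallyEq ?_ (if_neg c)
      filter_upwards [c1.continuousWithinAt.eventually_ne c] with x h1 using if_neg h1
  · split_ifs with c
    · exact div_ne_zero (exp_ne_zero _) (hk _ h).1
    · exact div_ne_zero (nf y h fun γ k => c ((hy γ k.1).1 ▸ k.1)) c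
  · split_ifs with c
    · obtain rfl := eq β y h c
      have c1 := e2 y h c
      rw [show ff S₀ S₁ L e y = _ from if_pos ⟨c1.1, c1.2.2 (hy β c).2⟩, c]
      rw [(hk _ h).2] at c
      rw [(mul_eq_zero.1 c).resolve_left (hk _ h).1, zero_mul, mul_zero]
    · rw [div_mul_cancel₀ _ c]

end Side

theorem triv_one (h : ∀ α, ∀ z ∈ K, ev (A.fm (.inr α)) z ≠ 0) :
    A.Triv K (fun _ => 1) fun α y => (ev (A.fm (.inr α)) (π y))⁻¹ :=
  ⟨continuousOn_const, fun _ _ _ => one_ne_zero,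
    fun α => ContinuousOn.inv₀ (by fun_prop) fun _ k => h α _ k.1,
    fun α _ k _ => inv_ne_zero (h α _ k), fun α _ k _ => (inv_mul_cancel₀ (h α _ k)).symm⟩

end Vale.Agent.P300LG
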